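import Vale.Agent.N037E.Defs
import Vale.Agent.N037.Greedy

/-!
Ordered blocks, the greedy marking lemma in block form, and counting of copies.
-/

namespace Vale.Agent.N037E

open Finset

variable {k n : ℕ}

/-- Blocks of positions, each entirely before the next one. -/
def Ord (B : Fin k → Finset (Fin n)) : Prop :=
  ∀ i j, i < j → ∀ x ∈ B i, ∀ y ∈ B j, x < y

theorem Ord.strictMono {B : Fin k → Finset (Fin n)} (h : Ord B) {r : Fin k → Fin n}
    (hr : ∀ i, r i ∈ B i) : StrictMono r := fun i j hij => h i j hij _ (hr i) _ (hr j)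

theorem Ord.mono {B C : Fin k → Finset (Fin n)} (h : Ord B) (hC : ∀ i, C i ⊆ B i) : Ord C :=
  fun i j hij _ hx _ hy => h i j hij _ (hC i hx) _ (hC j hy)

/-- After marking `k * t` positions, one weakly increasing unmarked occurrence of a word gives
ordered blocks of `t` occurrences of each letter. -/
theorem greedyB (t : ℕ) : ∀ (k : ℕ) (P : Fin k → Fin n → Prop),
    ∃ M : Finset (Fin n), M.card ≤ k * t ∧ ∀ p : Fin k → Fin n, Monotone p →
      (∀ i, p i ∉ M ∧ P i (p i)) →
        ∃ B : Fin k → Finset (Fin n), Ord B ∧ (∀ i, t ≤ (B i).card) ∧ ∀ i, ∀ x ∈ B i, P i x := by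
  classical
  intro k
  induction k with
  | zero =>
    intro P
    exact ⟨∅, by simp, fun p _ _ => ⟨fun i => i.elim0, fun i => i.elim0, fun i => i.elim0,
      fun i => i.elim0⟩⟩
  | succ k ih =>
    intro P
    obtain ⟨B, hBS, hBt, hB⟩ := N037.exists_first (univ.filter (P 0)) t
    obtain ⟨M, hM, hM2⟩ := ih (fun i x => P i.succ x ∧ ∀ b ∈ B, b < x)
    refine ⟨B ∪ M, ?_, fun p hp hP => ?_⟩
    · calc (B ∪ M).card ≤ B.card + M.card := card_union_le _ _
        _ ≤ t + k * t := Nat.add_le_add hBt hM
        _ = (k + 1) * t := by ring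
    · have h0 := hB (p 0) (by simpa using (hP 0).2)
        (fun h => (hP 0).1 (mem_union_left _ h))
      obtain ⟨C, hC1, hC2, hC3⟩ := hM2 (fun i => p i.succ)
        (fun i j hij => hp (Fin.succ_le_succ_iff.2 hij))
        (fun i => ⟨fun h => (hP i.succ).1 (mem_union_right _ h), (hP i.succ).2,
          fun b hb => lt_of_lt_of_le (h0.2 b hb) (hp (Fin.zero_le _))⟩)
      refine ⟨Fin.cons B C, ?_, ?_, ?_⟩
      · intro i j hij
        refine Fin.cases ?_ (fun j' => ?_) j hij
        · intro h
          exact absurd h (Fin.not_lt_zero _)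
        · refine Fin.cases ?_ (fun i' => ?_) i
          · intro _ x hx y hy
            simp only [Fin.cons_zero, Fin.cons_succ] at hx hy
            exact (hC3 j' y hy).2 x hx
          · intro h x hx y hy
            simp only [Fin.cons_succ] at hx hy
            exact hC1 i' j' (Fin.succ_lt_succ_iff.1 h) x hx y hy
      · intro i
        refine Fin.cases ?_ (fun i' => ?_) i
        · simp only [Fin.cons_zero]
          exact h0.1.ge
        · simp only [Fin.cons_succ]
          exact hC2 i'
      · intro i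
        refine Fin.cases ?_ (fun i' => ?_) i
        · intro x hx
          simp only [Fin.cons_zero] at hx
          simpa using hBS hx
        · intro x hx
          simp only [Fin.cons_succ] at hx
          exact (hC3 i' x hx).1

/-- The selections `r`, `c` form a copy. -/
def Cp {a b : ℕ} (H : Matrix (Fin a) (Fin b) Bool) (A : Matrix (Fin n) (Fin n) Bool)
    (r : Fin a → Fin n) (c : Fin b → Fin n) : Prop :=
  StrictMono r ∧ StrictMono c ∧ ∀ i j, A (r i) (c j) = H i j

open Classical in
theorem copies_eq {a b : ℕ} (H : Matrix (Fin a) (Fin b) Bool) (A : Matrix (Fin n) (Fin n) Bool) :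
    copies H A =
      (univ.filter fun p : (Fin a → Fin n) × (Fin b → Fin n) => Cp H A p.1 p.2).card := by
  unfold copies
  rw [← Set.ncard_coe_finset]
  congr 1
  ext p
  rw [mem_coe, mem_filter]
  simp only [Cp, Set.mem_ofPred_eq, mem_univ, true_and, ← Matrix.ext_iff,
    Matrix.submatrix_apply]

open Classical in
theorem copies_eq_rows (H : Matrix (Fin k) (Fin k) Bool) (A : Matrix (Fin n) (Fin n) Bool) :
    copies H A = ∑ r : Fin k → Fin n, (univ.filter fun c => Cp H A r c).card := by
  rw [copies_eq, card_filter, Fintype.sum_prod_type]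
  exact sum_congr rfl fun r _ => (card_filter _ _).symm

open Classical in
theorem copies_eq_cols (H : Matrix (Fin k) (Fin k) Bool) (A : Matrix (Fin n) (Fin n) Bool) :
    copies H A = ∑ c : Fin k → Fin n, (univ.filter fun r => Cp H A r c).card := by
  rw [copies_eq, card_filter, Fintype.sum_prod_type_right]
  exact sum_congr rfl fun r _ => (card_filter _ _).symm

theorem exists_cp {a b : ℕ} {H : Matrix (Fin a) (Fin b) Bool} {A : Matrix (Fin n) (Fin n) Bool}
    (h : copies H A ≠ 0) : ∃ r c, Cp H A r c := by
  classical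
  rw [copies_eq] at h
  obtain ⟨p, hp⟩ := card_pos.1 (Nat.pos_of_ne_zero h)
  exact ⟨p.1, p.2, (mem_filter.1 hp).2⟩

theorem pow_le_card_pi {B : Fin k → Finset (Fin n)} {a : ℕ} (ha : ∀ i, a ≤ (B i).card) :
    a ^ k ≤ (Fintype.piFinset B).card := by
  rw [Fintype.card_piFinset]
  calc a ^ k = ∏ _i : Fin k, a := by simp
    _ ≤ _ := prod_le_prod' fun i _ => ha i

/-- Row blocks, and for each choice of rows column blocks, give many copies. -/
theorem copies_ge (H : Matrix (Fin k) (Fin k) Bool) (A : Matrix (Fin n) (Fin n) Bool)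
    {R : Fin k → Finset (Fin n)} (hR : Ord R) {a b : ℕ} (ha : ∀ i, a ≤ (R i).card)
    (h : ∀ r : Fin k → Fin n, (∀ i, r i ∈ R i) → ∃ C : Fin k → Finset (Fin n), Ord C ∧
      (∀ j, b ≤ (C j).card) ∧ ∀ i j, ∀ y ∈ C j, A (r i) y = H i j) :
    a ^ k * b ^ k ≤ copies H A := by
  classical
  rw [copies_eq_rows]
  calc a ^ k * b ^ k ≤ (Fintype.piFinset R).card * b ^ k :=
        Nat.mul_le_mul_right _ (pow_le_card_pi ha)
    _ = ∑ _r ∈ Fintype.piFinset R, b ^ k := by rw [sum_const, smul_eq_mul]
    _ ≤ ∑ r ∈ Fintype.piFinset R, (univ.filter fun c => Cp H A r c).card := by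
        refine sum_le_sum fun r hr => ?_
        rw [Fintype.mem_piFinset] at hr
        obtain ⟨C, hC1, hC2, hC3⟩ := h r hr
        refine (pow_le_card_pi hC2).trans (card_le_card fun c hc => ?_)
        rw [Fintype.mem_piFinset] at hc
        exact mem_filter.2 ⟨mem_univ _, hR.strictMono hr, hC1.strictMono hc,
          fun i j => hC3 i j _ (hc j)⟩
    _ ≤ _ := sum_le_sum_of_subset (subset_univ _)

/-- The number of columns in which two rows differ. -/
def hd (A : Matrix (Fin n) (Fin n) Bool) (x x' : Fin n) : ℕ :=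
  (univ.filter fun y => A x y ≠ A x' y).card

theorem hd_self (A : Matrix (Fin n) (Fin n) Bool) (x : Fin n) : hd A x x = 0 := by
  simp [hd]

theorem hd_comm (A : Matrix (Fin n) (Fin n) Bool) (x x' : Fin n) : hd A x x' = hd A x' x := by
  unfold hd
  congr 1
  ext y
  simp only [mem_filter, mem_univ, true_and, ne_comm]

theorem hd_triangle (A : Matrix (Fin n) (Fin n) Bool) (x y z : Fin n) :
    hd A x z ≤ hd A x y + hd A y z := by
  unfold hd
  refine le_trans (card_le_card fun w hw => ?_) (card_union_le _ _)
  simp only [mem_filter, mem_univ, true_and, mem_union] at hw ⊢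
  by_contra hc
  simp only [not_or, not_not] at hc
  exact hw (hc.1.trans hc.2)

theorem changes_eq (A B : Matrix (Fin n) (Fin n) Bool) :
    changes A B = ∑ x : Fin n, (univ.filter fun y => A x y ≠ B x y).card := by
  unfold changes hammingDist
  rw [card_filter, Fintype.sum_prod_type]
  exact sum_congr rfl fun r _ => (card_filter _ _).symm

end Vale.Agent.N037E
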