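import Vale.Agent.N037E.Blocks
import Mathlib.Combinatorics.SetFamily.Shatter
import Mathlib.Data.Fin.Tuple.Sort
import Mathlib.Algebra.Order.Chebyshev

/-!
If a pattern has few ordered copies, almost all rows are close to one of few rows.
-/

namespace Vale.Agent.N037E

open Finset

variable {k n : ℕ}

/-- A shattered set of `k ^ k * k` columns contains a copy with weakly increasing rows. -/
theorem copy_of_shatter (H : Matrix (Fin k) (Fin k) Bool) (A : Matrix (Fin n) (Fin n) Bool)
    (R Z : Finset (Fin n)) (hZ : Z.card = k ^ k * k)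
    (h : ∀ s ⊆ Z, ∃ x ∈ R, ∀ y ∈ Z, (A x y = true ↔ y ∈ s)) :
    ∃ p c : Fin k → Fin n, Monotone p ∧ (∀ i, p i ∈ R) ∧ StrictMono c ∧ (∀ j, c j ∈ Z) ∧
      ∀ i j, A (p i) (c j) = H i j := by
  classical
  let e := Z.orderEmbOfFin hZ
  let g : Fin (k ^ k) ≃ (Fin k → Fin k) := (Fintype.equivFinOfCardEq (by simp)).symm
  let s : Fin k → Finset (Fin n) := fun i =>
    (univ.filter fun u : Fin (k ^ k * k) =>
      H (g (finProdFinEquiv.symm u).1 i) (finProdFinEquiv.symm u).2 = true).image e
  have hs : ∀ i, s i ⊆ Z := by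
    intro i y hy
    obtain ⟨u, _, rfl⟩ := mem_image.1 hy
    exact Z.orderEmbOfFin_mem hZ u
  choose x hxR hx using fun i => h (s i) (hs i)
  let σ := Tuple.sort x
  let j0 : Fin (k ^ k) := g.symm fun i => σ.symm i
  refine ⟨x ∘ σ, fun l => e (finProdFinEquiv (j0, l)), Tuple.monotone_sort x,
    fun i => hxR _, ?_, fun l => Z.orderEmbOfFin_mem hZ _, ?_⟩
  · intro l l' hl
    apply e.strictMono
    rw [Fin.lt_def] at hl ⊢
    simp only [finProdFinEquiv_apply_val]
    omega
  · intro i l
    have h1 := hx (σ i) (e (finProdFinEquiv (j0, l))) (Z.orderEmbOfFin_mem hZ _)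
    have h2 : e (finProdFinEquiv (j0, l)) ∈ s (σ i) ↔ H i l = true := by
      constructor
      · intro hy
        obtain ⟨u, hu, hu2⟩ := mem_image.1 hy
        have h3 := e.injective hu2
        subst h3
        simpa only [mem_filter, mem_univ, true_and, Equiv.symm_apply_apply, j0,
          Equiv.apply_symm_apply] using hu
      · intro hy
        refine mem_image.2 ⟨_, ?_, rfl⟩
        simpa only [mem_filter, mem_univ, true_and, Equiv.symm_apply_apply, j0,
          Equiv.apply_symm_apply] using hy
    exact Bool.eq_iff_iff.2 (h1.trans h2)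

/-- Without a copy there are few traces of the rows on a set of columns. -/
theorem traces_le (H : Matrix (Fin k) (Fin k) Bool) (A : Matrix (Fin n) (Fin n) Bool)
    (R Y : Finset (Fin n))
    (h : ¬ ∃ p c : Fin k → Fin n, Monotone p ∧ (∀ i, p i ∈ R) ∧ StrictMono c ∧ (∀ j, c j ∈ Y) ∧
      ∀ i j, A (p i) (c j) = H i j) :
    (R.image fun x => Y.filter fun y => A x y = true).card ≤
      k ^ k * k * (Y.card + 1) ^ (k ^ k * k) := by
  classical
  set d := k ^ k * k with hd
  set F := R.image fun x => Y.filter fun y => A x y = true with hF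
  have h1 : F.shatterer ⊆ (range d).biUnion fun i => powersetCard i Y := by
    intro s hs
    rw [mem_shatterer] at hs
    have hsY : s ⊆ Y := by
      obtain ⟨t, ht, hst⟩ := hs.exists_superset
      obtain ⟨x, _, rfl⟩ := mem_image.1 ht
      exact hst.trans (filter_subset _ _)
    refine mem_biUnion.2 ⟨s.card, mem_range.2 ?_, mem_powersetCard.2 ⟨hsY, rfl⟩⟩
    by_contra hc
    obtain ⟨Z, hZs, hZ⟩ := exists_subset_card_eq (not_lt.1 hc)
    have hsh := hs.mono_right hZs
    obtain ⟨p, c, h1, h2, h3, h4, h5⟩ := copy_of_shatter H A R Z hZ (by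
      intro t ht
      obtain ⟨u, hu, hut⟩ := hsh ht
      obtain ⟨x, hx, rfl⟩ := mem_image.1 hu
      refine ⟨x, hx, fun y hy => ?_⟩
      rw [← hut, mem_inter, mem_filter]
      exact ⟨fun hA => ⟨hy, hsY (hZs hy), hA⟩, fun hA => hA.2.2⟩)
    exact h ⟨p, c, h1, h2, h3, fun j => hsY (hZs (h4 j)), h5⟩
  calc F.card ≤ F.shatterer.card := card_le_card_shatterer F
    _ ≤ _ := card_le_card h1
    _ ≤ (range d).card * (Y.card + 1) ^ d := by
        refine card_biUnion_le_card_mul _ _ _ fun i hi => ?_
        rw [card_powersetCard]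
        calc Y.card.choose i ≤ Y.card ^ i := Nat.choose_le_pow _ _
          _ ≤ (Y.card + 1) ^ i := Nat.pow_le_pow_left (Nat.le_succ _) _
          _ ≤ (Y.card + 1) ^ d :=
            Nat.pow_le_pow_right (Nat.succ_pos _) (mem_range.1 hi).le
    _ = _ := by rw [card_range]

/-- Greedy removal of large balls. -/
theorem ball_greedy {α : Type*} [DecidableEq α] (cl : α → α → Prop) [DecidableRel cl] {g : ℕ}
    (hg : 1 ≤ g) (S : Finset α) :
    ∃ X R : Finset α, R ⊆ S ∧ X.card * g ≤ S.card ∧ (∀ x ∈ S, x ∉ R → ∃ c ∈ X, cl c x) ∧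
      ∀ x ∈ R, (R.filter (cl x)).card < g := by
  induction S using Finset.strongInduction with
  | H S ih =>
    by_cases h : ∀ x ∈ S, (S.filter (cl x)).card < g
    · exact ⟨∅, S, subset_rfl, by simp, fun x hx hx' => absurd hx hx', h⟩
    · simp only [not_forall, not_lt] at h
      obtain ⟨c, _, hc⟩ := h
      have hne : (S.filter (cl c)).Nonempty := card_pos.1 (by omega)
      obtain ⟨X, R, h1, h2, h3, h4⟩ := ih (S \ S.filter (cl c))
        (sdiff_ssubset (filter_subset _ _) hne)
      refine ⟨insert c X, R, h1.trans sdiff_subset, ?_, ?_, h4⟩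
      · have h5 := card_insert_le c X
        have h6 := card_sdiff_add_card_eq_card (filter_subset (cl c) S)
        calc (insert c X).card * g ≤ (X.card + 1) * g := Nat.mul_le_mul_right _ h5
          _ = X.card * g + g := by ring
          _ ≤ S.card := by omega
      · intro x hx hxR
        by_cases hcx : cl c x
        · exact ⟨c, mem_insert_self _ _, hcx⟩
        · obtain ⟨c', hc', hc''⟩ := h3 x
            (mem_sdiff.2 ⟨hx, fun hm => hcx (mem_filter.1 hm).2⟩) hxR
          exact ⟨c', mem_insert_of_mem hc', hc''⟩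

/-- The number of tuples of columns on which two rows agree. -/
theorem card_agree (A : Matrix (Fin n) (Fin n) Bool) (x x' : Fin n) (t : ℕ) :
    (univ.filter fun y : Fin t → Fin n => ∀ l, A x (y l) = A x' (y l)).card =
      (n - hd A x x') ^ t := by
  classical
  have h1 : (univ.filter fun y : Fin t → Fin n => ∀ l, A x (y l) = A x' (y l)) =
      Fintype.piFinset fun _ : Fin t => univ.filter fun y => ¬ A x y ≠ A x' y := by
    ext y
    simp [Fintype.mem_piFinset]
  have h2 := card_filter_add_card_filter_not (s := (univ : Finset (Fin n)))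
    (fun y => A x y ≠ A x' y)
  rw [card_univ, Fintype.card_fin] at h2
  rw [h1, Fintype.card_piFinset, prod_const, card_univ, Fintype.card_fin]
  congr 1
  unfold hd
  omega

/-- Tuples with prescribed values at `k` prescribed places. -/
theorem card_prescribed {t : ℕ} (π : Fin k → Fin t) (c : Fin k → Fin n)
    (hc : Function.Injective c) :
    (univ.filter fun y : Fin t → Fin n => y ∘ π = c).card * n ^ k ≤ n ^ t := by
  classical
  by_cases hne : (univ.filter fun y : Fin t → Fin n => y ∘ π = c).Nonempty
  · obtain ⟨y0, hy0⟩ := hne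
    have hπ : Function.Injective π := by
      have h1 := (mem_filter.1 hy0).2
      rw [← h1] at hc
      exact hc.of_comp
    have h2 : ((univ.filter fun y : Fin t → Fin n => y ∘ π = c) ×ˢ
        (univ : Finset (Fin k → Fin n))).card ≤ (univ : Finset (Fin t → Fin n)).card := by
      refine card_le_card_of_injOn (fun p => Function.extend π p.2 p.1) (fun _ _ => mem_univ _) ?_
      intro p hp q hq hpq
      have hp1 := (mem_filter.1 (mem_product.1 hp).1).2
      have hq1 := (mem_filter.1 (mem_product.1 hq).1).2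
      refine Prod.ext ?_ ?_
      · funext l
        by_cases hl : ∃ j, π j = l
        · obtain ⟨j, rfl⟩ := hl
          exact (congrFun hp1 j).trans (congrFun hq1 j).symm
        · have h3 := congrFun hpq l
          simp only [Function.extend_apply' _ _ _ hl] at h3
          exact h3
      · funext j
        have h3 := congrFun hpq (π j)
        simp only [hπ.extend_apply] at h3
        exact h3
    simpa [card_product] using h2
  · rw [not_nonempty_iff_eq_empty.1 hne]
    simp

/-- Few tuples of columns contain a member of a small family of selections. -/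
theorem card_hit {t : ℕ} (C : Finset (Fin k → Fin n)) (hC : ∀ c ∈ C, Function.Injective c) :
    (univ.filter fun y : Fin t → Fin n => ∃ π : Fin k → Fin t, y ∘ π ∈ C).card * n ^ k ≤
      t ^ k * C.card * n ^ t := by
  classical
  have h1 : (univ.filter fun y : Fin t → Fin n => ∃ π : Fin k → Fin t, y ∘ π ∈ C) ⊆
      ((univ : Finset (Fin k → Fin t)) ×ˢ C).biUnion fun p =>
        univ.filter fun y : Fin t → Fin n => y ∘ p.1 = p.2 := by
    intro y hy
    obtain ⟨π, hπ⟩ := (mem_filter.1 hy).2
    exact mem_biUnion.2 ⟨(π, y ∘ π), mem_product.2 ⟨mem_univ _, hπ⟩,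
      mem_filter.2 ⟨mem_univ _, rfl⟩⟩
  calc _ ≤ (∑ p ∈ (univ : Finset (Fin k → Fin t)) ×ˢ C,
          (univ.filter fun y : Fin t → Fin n => y ∘ p.1 = p.2).card) * n ^ k :=
        Nat.mul_le_mul_right _ ((card_le_card h1).trans card_biUnion_le)
    _ ≤ ∑ _p ∈ (univ : Finset (Fin k → Fin t)) ×ˢ C, n ^ t := by
        rw [sum_mul]
        exact sum_le_sum fun p hp => card_prescribed p.1 p.2 (hC _ (mem_product.1 hp).2)
    _ = _ := by simp [card_product]

/-- Pairs in the same fibre of a map with few values. -/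
theorem sq_le_pairs {α β : Type*} [DecidableEq α] [DecidableEq β] (R : Finset α) (f : α → β) :
    R.card ^ 2 ≤ (R.image f).card * ((R ×ˢ R).filter fun p => f p.1 = f p.2).card := by
  have h1 : R.card = ∑ b ∈ R.image f, (R.filter fun x => f x = b).card :=
    card_eq_sum_card_fiberwise fun x hx => mem_coe.2 (mem_image_of_mem f hx)
  have h2 : ((R ×ˢ R).filter fun p => f p.1 = f p.2).card =
      ∑ b ∈ R.image f, (R.filter fun x => f x = b).card ^ 2 := by
    rw [card_eq_sum_card_fiberwise (f := fun p : α × α => f p.1) (t := R.image f)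
      (fun p hp => mem_coe.2 (mem_image_of_mem f (mem_product.1 (mem_filter.1 hp).1).1))]
    refine sum_congr rfl fun b _ => ?_
    rw [sq, ← card_product]
    congr 1
    ext p
    simp only [mem_filter, mem_product]
    constructor
    · rintro ⟨⟨⟨a1, a2⟩, a3⟩, a4⟩
      exact ⟨⟨a1, a4⟩, a2, a3 ▸ a4⟩
    · rintro ⟨⟨a1, a4⟩, a2, a3⟩
      exact ⟨⟨⟨a1, a2⟩, a4.trans a3.symm⟩, a4⟩
  rw [h2]
  nth_rewrite 1 [h1]
  exact sq_sum_le_card_mul_sum_sq

end Vale.Agent.N037E
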