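import Mathlib.Data.Matrix.Basic
import Mathlib.Data.Set.Card
import Mathlib.Data.Real.Archimedean
import Mathlib.InformationTheory.Hamming

/-!
Ordered copies of a binary pattern, number of changed entries, distance from freeness.
-/

namespace Vale.Agent.N037E

/-- `N_H(A)`: the number of pairs of strictly increasing row and column selections whose
submatrix of `A` is `H`. -/
noncomputable def copies {a b n : ℕ} (H : Matrix (Fin a) (Fin b) Bool)
    (A : Matrix (Fin n) (Fin n) Bool) : ℕ :=
  {p : (Fin a → Fin n) × (Fin b → Fin n) |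
    StrictMono p.1 ∧ StrictMono p.2 ∧ A.submatrix p.1 p.2 = H}.ncard

/-- The number of entries in which `A` and `B` differ (Hamming distance). -/
def changes {n : ℕ} (A B : Matrix (Fin n) (Fin n) Bool) : ℕ :=
  hammingDist (fun p : Fin n × Fin n => A p.1 p.2) (fun p : Fin n × Fin n => B p.1 p.2)

/-- `dist_H(A)`: the least proportion of entries to be changed to reach an `H`-free matrix. -/
noncomputable def distTo {k n : ℕ} (H : Matrix (Fin k) (Fin k) Bool)
    (A : Matrix (Fin n) (Fin n) Bool) : ℝ :=
  ⨅ B : {B : Matrix (Fin n) (Fin n) Bool // copies H B = 0}, (changes A B.1 : ℝ) / (n : ℝ) ^ 2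

end Vale.Agent.N037E
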