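import Vale.Agent.N037E.Main
import Vale.Agent.N037.Few
import Vale.Agent.P037.Bdl.B1

/-!
Rectangular patterns, the real form of the bound, and the bridge to the counterexample.
-/

namespace Vale.Agent.N037E

open Finset

variable {k n : ℕ}

theorem exists_extend {a : ℕ} (r : Fin a → Fin n) (hr : StrictMono r) (ha : a ≤ k) (hk : k ≤ n) :
    ∃ (r' : Fin k → Fin n) (e : Fin a → Fin k), StrictMono r' ∧ StrictMono e ∧ r' ∘ e = r := by
  obtain ⟨Z, hZ1, -, hZ2⟩ := exists_subsuperset_card_eq (n := k) (subset_univ (univ.image r))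
    (card_image_le.trans (by rwa [card_univ, Fintype.card_fin]))
    (by rwa [card_univ, Fintype.card_fin])
  have h : ∀ i, ∃ j, Z.orderEmbOfFin hZ2 j = r i := by
    intro i
    have h1 : r i ∈ Set.range (Z.orderEmbOfFin hZ2) := by
      rw [range_orderEmbOfFin]
      exact hZ1 (mem_image_of_mem r (mem_univ i))
    exact h1
  choose e he using h
  refine ⟨Z.orderEmbOfFin hZ2, e, (Z.orderEmbOfFin hZ2).strictMono, fun i j hij => ?_, funext he⟩
  have h2 := hr hij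
  rw [← he i, ← he j] at h2
  exact (Z.orderEmbOfFin hZ2).lt_iff_lt.1 h2

/-- Copies of a pattern give copies of its subpatterns. -/
theorem copies_sub {a b : ℕ} (G : Matrix (Fin k) (Fin k) Bool) (A : Matrix (Fin n) (Fin n) Bool)
    {e : Fin a → Fin k} {e' : Fin b → Fin k} (he : StrictMono e) (he' : StrictMono e') :
    copies G A * n ^ (a + b) ≤ copies (G.submatrix e e') A * n ^ (2 * k) := by
  classical
  rw [copies_eq, copies_eq]
  rw [card_eq_sum_card_fiberwise (f := fun p : (Fin k → Fin n) × (Fin k → Fin n) =>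
    (p.1 ∘ e, p.2 ∘ e')) (t := univ.filter fun p : (Fin a → Fin n) × (Fin b → Fin n) =>
      Cp (G.submatrix e e') A p.1 p.2) (fun p hp => by
        obtain ⟨h1, h2, h3⟩ := (mem_filter.1 (mem_coe.1 hp)).2
        exact mem_coe.2 (mem_filter.2 ⟨mem_univ _, h1.comp he, h2.comp he',
          fun i j => h3 (e i) (e' j)⟩)), sum_mul]
  refine (sum_le_card_nsmul _ _ (n ^ (2 * k)) fun q hq => ?_).trans (by rw [smul_eq_mul])
  obtain ⟨h1, h2, -⟩ := (mem_filter.1 hq).2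
  have h3 := card_prescribed e q.1 h1.injective
  have h4 := card_prescribed e' q.2 h2.injective
  calc _ ≤ ((univ.filter fun y : Fin k → Fin n => y ∘ e = q.1) ×ˢ
          (univ.filter fun y : Fin k → Fin n => y ∘ e' = q.2)).card * n ^ (a + b) := by
        refine Nat.mul_le_mul_right _ (card_le_card fun p hp => ?_)
        have h5 := (mem_filter.1 hp).2
        exact mem_product.2 ⟨mem_filter.2 ⟨mem_univ _, congrArg Prod.fst h5⟩,
          mem_filter.2 ⟨mem_univ _, congrArg Prod.snd h5⟩⟩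
    _ = (univ.filter fun y : Fin k → Fin n => y ∘ e = q.1).card * n ^ a *
          ((univ.filter fun y : Fin k → Fin n => y ∘ e' = q.2).card * n ^ b) := by
        rw [card_product]
        ring
    _ ≤ n ^ k * n ^ k := Nat.mul_le_mul h3 h4
    _ = _ := by ring

theorem core_rect (hk : 1 ≤ k) : ∃ a b κ : ℕ, ∀ P, 16 ≤ P → ∀ n, 1 ≤ n →
    ∀ A : Matrix (Fin n) (Fin n) Bool, ∃ B, changes A B * P ≤ 8 * n ^ 2 ∧
      ∀ s t : ℕ, s ≤ k → t ≤ k → ∀ G : Matrix (Fin s) (Fin t) Bool, copies G B ≠ 0 →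
        n ^ (s + t) ≤ copies G A * ((P ^ b) ^ κ ^ (P * P ^ a)) ^ (2 * k) := by
  obtain ⟨a, b, κ, h⟩ := core hk
  refine ⟨a, b, κ, fun P hP n hn A => ?_⟩
  obtain ⟨h1, h2⟩ := h P hP
  generalize (P ^ b) ^ κ ^ (P * P ^ a) = D at h1 h2 ⊢
  by_cases hkn : k ≤ n
  · obtain ⟨B, hB1, hB2⟩ := h2 n hn A
    refine ⟨B, hB1, fun s t hs ht G hG => ?_⟩
    obtain ⟨r, c, hr, hc, hrc⟩ := exists_cp hG
    obtain ⟨r', e, hr', he, hre⟩ := exists_extend r hr hs hkn
    obtain ⟨c', e', hc', he', hce⟩ := exists_extend c hc ht hkn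
    have h3 : copies (B.submatrix r' c') B ≠ 0 := by
      classical
      rw [copies_eq]
      exact (card_pos.2 ⟨(r', c'), mem_filter.2 ⟨mem_univ _, hr', hc', fun _ _ => rfl⟩⟩).ne'
    have h4 : (B.submatrix r' c').submatrix e e' = G := by
      ext i j
      rw [← hrc i j, ← hre, ← hce]
      rfl
    have h5 := copies_sub (B.submatrix r' c') A he he'
    rw [h4] at h5
    refine Nat.le_of_mul_le_mul_right (c := n ^ (2 * k)) ?_ (Nat.pow_pos hn)
    calc n ^ (s + t) * n ^ (2 * k)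
        ≤ n ^ (s + t) * (copies (B.submatrix r' c') A * D ^ (2 * k)) :=
          Nat.mul_le_mul_left _ (hB2 _ h3)
      _ = copies (B.submatrix r' c') A * n ^ (s + t) * D ^ (2 * k) := by ring
      _ ≤ copies G A * n ^ (2 * k) * D ^ (2 * k) := Nat.mul_le_mul_right _ h5
      _ = _ := by ring
  · refine ⟨A, ?_, fun s t hs ht G hG => ?_⟩
    · rw [changes, hammingDist_self, Nat.zero_mul]
      exact Nat.zero_le _
    · calc n ^ (s + t) ≤ n ^ (2 * k) := Nat.pow_le_pow_right hn (by omega)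
        _ ≤ D ^ (2 * k) := Nat.pow_le_pow_left (by omega) _
        _ ≤ _ := Nat.le_mul_of_pos_left _ (Nat.pos_of_ne_zero hG)

theorem le_exp_self (x : ℝ) : x ≤ Real.exp x := by
  have h := Real.add_one_le_exp x
  linarith

/-- The size of the integer bound. -/
theorem bound_le (a b κ k P : ℕ) (hP : 1 ≤ P) :
    ((((P ^ b) ^ κ ^ (P * P ^ a)) ^ (2 * k) : ℕ) : ℝ) ≤
      Real.exp (Real.exp (((1 + b * (2 * k) + κ : ℕ) : ℝ) * (P : ℝ) ^ (a + 1))) := by
  obtain ⟨T, hT⟩ : ∃ T, T = P * P ^ a := ⟨_, rfl⟩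
  have hT1 : (P : ℝ) ^ (a + 1) = T := by rw [hT]; push_cast; ring
  have hT2 : P ≤ T := by rw [hT]; exact Nat.le_mul_of_pos_right _ (Nat.pow_pos hP)
  rw [hT1, ← hT, ← pow_mul, ← pow_mul, Nat.cast_pow]
  refine (pow_le_pow_left₀ (Nat.cast_nonneg P) (le_exp_self P) _).trans ?_
  rw [← Real.exp_nat_mul]
  refine Real.exp_le_exp.2 ?_
  have h1 : ((κ : ℝ)) ^ T ≤ Real.exp (T * κ) := by
    rw [Real.exp_nat_mul]
    exact pow_le_pow_left₀ (Nat.cast_nonneg κ) (le_exp_self κ) _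
  have h2 : P + b * (2 * k) + T * κ ≤ (1 + b * (2 * k) + κ) * T := by
    have h3 : b * (2 * k) ≤ b * (2 * k) * T := Nat.le_mul_of_pos_right _ (by omega)
    have h4 : (1 + b * (2 * k) + κ) * T = T + b * (2 * k) * T + T * κ := by ring
    omega
  calc ((b * (κ ^ T * (2 * k)) : ℕ) : ℝ) * P = P * ((b * (2 * k) : ℕ) : ℝ) * (κ : ℝ) ^ T := by
        push_cast; ring
    _ ≤ Real.exp P * Real.exp ((b * (2 * k) : ℕ) : ℝ) * Real.exp (T * κ) :=
        mul_le_mul (mul_le_mul (le_exp_self _) (le_exp_self _) (Nat.cast_nonneg _)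
          (Real.exp_pos _).le) h1 (by positivity) (by positivity)
    _ = Real.exp (((P + b * (2 * k) + T * κ : ℕ) : ℝ)) := by
        rw [← Real.exp_add, ← Real.exp_add]
        push_cast
        rfl
    _ ≤ _ := Real.exp_le_exp.2 (by exact_mod_cast h2)

/-- The simultaneous removal lemma with a doubly exponential bound. -/
theorem removal (hk : 1 ≤ k) : ∃ C : ℝ, 0 < C ∧ ∀ n : ℕ, 1 ≤ n → ∀ ε : ℝ, 0 < ε → ε < 1 →
    ∀ A : Matrix (Fin n) (Fin n) Bool, ∃ B, (changes A B : ℝ) < ε * (n : ℝ) ^ 2 ∧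
      ∀ s t : ℕ, s ≤ k → t ≤ k → ∀ G : Matrix (Fin s) (Fin t) Bool, copies G B ≠ 0 →
        Real.exp (-Real.exp (C / ε ^ C)) * (n : ℝ) ^ (s + t) ≤ copies G A := by
  obtain ⟨a, b, κ, h⟩ := core_rect hk
  obtain ⟨K, hK⟩ : ∃ K : ℝ, K = ((1 + b * (2 * k) + κ : ℕ) : ℝ) := ⟨_, rfl⟩
  have hK0 : 0 ≤ K := by rw [hK]; positivity
  refine ⟨K * 32 ^ (a + 1) + ((a + 1 : ℕ) : ℝ), by positivity, fun n hn ε h0 h1 A => ?_⟩
  obtain ⟨C, hC⟩ : ∃ C : ℝ, C = K * 32 ^ (a + 1) + ((a + 1 : ℕ) : ℝ) := ⟨_, rfl⟩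
  rw [← hC]
  obtain ⟨p, hp⟩ : ∃ p : ℕ, p = ⌈1 / ε⌉₊ := ⟨_, rfl⟩
  have hp1 : 1 / ε ≤ p := by rw [hp]; exact Nat.le_ceil _
  have hp2 : (p : ℝ) < 1 / ε + 1 := by rw [hp]; exact Nat.ceil_lt_add_one (by positivity)
  have hp3 : 1 < 1 / ε := one_lt_one_div h0 h1
  have hp4 : 1 ≤ p := by
    have h2 : (1 : ℝ) ≤ p := by linarith
    exact_mod_cast h2
  obtain ⟨B, hB1, hB2⟩ := h (16 * p) (by omega) n hn A
  refine ⟨B, ?_, fun s t hs ht G hG => ?_⟩
  · have h2 : (changes A B : ℝ) * (16 * p) ≤ 8 * (n : ℝ) ^ 2 := by exact_mod_cast hB1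
    have h3 : 1 ≤ (p : ℝ) * ε := (div_le_iff₀ h0).1 hp1
    have h4 : (0 : ℝ) < (n : ℝ) ^ 2 := by positivity
    have h5 : (changes A B : ℝ) * 1 ≤ changes A B * (p * ε) :=
      mul_le_mul_of_nonneg_left h3 (Nat.cast_nonneg _)
    have h6 := mul_le_mul_of_nonneg_right h2 h0.le
    have h7 := mul_pos h0 h4
    nlinarith only [h5, h6, h7]
  · have h2 := bound_le a b κ k (16 * p) (by omega)
    have h3 : ((n : ℝ)) ^ (s + t) ≤ copies G A *
        (((((16 * p) ^ b) ^ κ ^ (16 * p * (16 * p) ^ a)) ^ (2 * k) : ℕ) : ℝ) := by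
      exact_mod_cast hB2 s t hs ht G hG
    have h4 : K * ((16 * p : ℕ) : ℝ) ^ (a + 1) ≤ C / ε ^ C := by
      have h5 : ((16 * p : ℕ) : ℝ) ≤ 32 / ε := by
        have h6 : 32 / ε = 32 * (1 / ε) := by ring
        push_cast
        linarith
      have h6 : ε ^ C ≤ ε ^ (a + 1) := by
        rw [← Real.rpow_natCast]
        refine Real.rpow_le_rpow_of_exponent_ge h0 h1.le ?_
        have h7 : 0 ≤ K * 32 ^ (a + 1) := by positivity
        linarith
      calc K * ((16 * p : ℕ) : ℝ) ^ (a + 1) ≤ K * (32 / ε) ^ (a + 1) :=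
            mul_le_mul_of_nonneg_left (pow_le_pow_left₀ (Nat.cast_nonneg _) h5 _) hK0
        _ = K * 32 ^ (a + 1) / ε ^ (a + 1) := by rw [div_pow, mul_div_assoc]
        _ ≤ C / ε ^ C := by
            refine div_le_div₀ (by rw [hC]; positivity) ?_ (Real.rpow_pos_of_pos h0 C) h6
            have h7 : (0 : ℝ) ≤ ((a + 1 : ℕ) : ℝ) := Nat.cast_nonneg _
            linarith
    rw [← hK] at h2
    have h5 := h2.trans (Real.exp_le_exp.2 (Real.exp_le_exp.2 h4))
    have h6 := h3.trans (mul_le_mul_of_nonneg_left h5 (Nat.cast_nonneg _))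
    rw [Real.exp_neg, inv_mul_le_iff₀ (Real.exp_pos _), mul_comm]
    exact h6

theorem distTo_le (H : Matrix (Fin k) (Fin k) Bool) (A B : Matrix (Fin n) (Fin n) Bool)
    (hB : copies H B = 0) : distTo H A ≤ (changes A B : ℝ) / (n : ℝ) ^ 2 :=
  ciInf_le (f := fun B : {B : Matrix (Fin n) (Fin n) Bool // copies H B = 0} =>
    (changes A B.1 : ℝ) / (n : ℝ) ^ 2) (Set.finite_range _).bddBelow ⟨B, hB⟩

theorem copies_eq_num (H : Matrix (Fin k) (Fin k) Bool) (A : Matrix (Fin n) (Fin n) Bool) :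
    copies H A = P037.numCopies H A := by
  unfold copies P037.numCopies
  rw [← Nat.card_coe_set_eq]
  refine Nat.card_congr ⟨fun p => ⟨(OrderEmbedding.ofStrictMono _ p.2.1,
    OrderEmbedding.ofStrictMono _ p.2.2.1), fun i j => congrFun (congrFun p.2.2.2 i) j⟩,
    fun q => ⟨(q.1.1, q.1.2), q.1.1.strictMono, q.1.2.strictMono,
      Matrix.ext fun i j => q.2 i j⟩, fun p => rfl, fun q => rfl⟩

theorem changes_eq_num (A B : Matrix (Fin n) (Fin n) Bool) : changes A B = P037.numDiff A B := by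
  unfold changes hammingDist P037.numDiff
  rw [Nat.card_eq_fintype_card, Fintype.card_subtype]

theorem not_poly : ¬ ∃ c C : ℝ, 0 < c ∧ 0 < C ∧ ∀ n : ℕ, 1 ≤ n → ∀ ε : ℝ, 0 < ε → ε < 1 →
    ∀ A : Matrix (Fin n) (Fin n) Bool, ε ≤ distTo P037.H5 A →
      c * ε ^ C * (n : ℝ) ^ (2 * 5) ≤ copies P037.H5 A := by
  rintro ⟨c, C, hc, hC, h⟩
  refine P037.Mini.not_poly ⟨c, C, hc, hC, fun n ε A hn h0 h1 hd => ?_⟩
  rw [← copies_eq_num]
  refine h n hn ε h0 h1 A (hd.trans ?_)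
  have : Nonempty {B : Matrix (Fin n) (Fin n) Bool // copies P037.H5 B = 0} :=
    ⟨⟨fun _ _ => false, (copies_eq_num _ _).trans P037.Mini.free_false⟩⟩
  refine le_ciInf fun B => ?_
  rw [changes_eq_num]
  exact N037.distFree_le _ A B.1 ((copies_eq_num _ _).symm.trans B.2)

end Vale.Agent.N037E
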