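import Vale.Agent.N037E.Near

/-!
Choice of representative rows in nested intervals, and the repaired matrix.
-/

namespace Vale.Agent.N037E

open Finset

variable {k n : ℕ}

/-- Among many windows there is one whose letters are shared, for every word, by `k` windows. -/
theorem lonely {α β : Type*} [DecidableEq α] [DecidableEq β] (Ws : Finset ℕ) (T : Finset α)
    (Y : Finset β) (v : ℕ → α → β) (hv : ∀ b t, v b t ∈ Y)
    (h : T.card ^ k * (Y.card ^ k * k) < Ws.card) :
    ∃ b0 ∈ Ws, ∀ u : Fin k → α, (∀ i, u i ∈ T) → ∃ bs : Fin k → ℕ, StrictMono bs ∧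
      ∀ l, bs l ∈ Ws ∧ v (bs l) (u l) = v b0 (u l) := by
  classical
  let bad : (Fin k → α) → Finset ℕ := fun u => Ws.filter fun b =>
    (Ws.filter fun b' => (fun i => v b' (u i)) = fun i => v b (u i)).card < k
  have h1 : ∀ u, (bad u).card ≤ Y.card ^ k * k := by
    intro u
    have h2 : (bad u).card ≤ k * (Fintype.piFinset fun _ : Fin k => Y).card := by
      refine card_le_mul_card_image_of_maps_to (f := fun b => fun i => v b (u i))
        (fun b _ => Fintype.mem_piFinset.2 fun i => hv _ _) k fun y _ => ?_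
      by_cases hne : ((bad u).filter fun b => (fun i => v b (u i)) = y).Nonempty
      · obtain ⟨b, hb⟩ := hne
        obtain ⟨hb1, hb2⟩ := mem_filter.1 hb
        refine le_trans (card_le_card fun b' hb' => ?_) (mem_filter.1 hb1).2.le
        obtain ⟨hb3, hb4⟩ := mem_filter.1 hb'
        exact mem_filter.2 ⟨(mem_filter.1 hb3).1, hb4.trans hb2.symm⟩
      · rw [not_nonempty_iff_eq_empty.1 hne]
        simp
    rw [Fintype.card_piFinset, prod_const, card_univ, Fintype.card_fin] at h2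
    rwa [Nat.mul_comm]
  have h3 : ((Fintype.piFinset fun _ : Fin k => T).biUnion bad).card < Ws.card := by
    refine lt_of_le_of_lt (card_biUnion_le_card_mul _ _ _ fun u _ => h1 u) ?_
    rwa [Fintype.card_piFinset, prod_const, card_univ, Fintype.card_fin]
  obtain ⟨b0, hb0, hb1⟩ := exists_mem_notMem_of_card_lt_card h3
  refine ⟨b0, hb0, fun u hu => ?_⟩
  have h4 : k ≤ (Ws.filter fun b' => (fun i => v b' (u i)) = fun i => v b0 (u i)).card := by
    by_contra hc
    exact hb1 (mem_biUnion.2 ⟨u, Fintype.mem_piFinset.2 hu, mem_filter.2 ⟨hb0, not_le.1 hc⟩⟩)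
  obtain ⟨Z, hZ1, hZ2⟩ := exists_subset_card_eq h4
  refine ⟨Z.orderEmbOfFin hZ2, (Z.orderEmbOfFin hZ2).strictMono, fun l => ?_⟩
  have h5 := mem_filter.1 (hZ1 (Z.orderEmbOfFin_mem hZ2 l))
  exact ⟨h5.1, congrFun h5.2 l⟩

/-- The letters of the good rows in the interval number `b` of width `w`. -/
def seen (Gd : Finset (Fin n)) (c : Fin n → Fin n) (w b : ℕ) : Finset (Fin n) :=
  (Gd.filter fun x => x.1 / w = b).image c

theorem card_window (w b : ℕ) (hw : 0 < w) :
    (univ.filter fun x : Fin n => x.1 / w = b).card ≤ w := by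
  refine le_trans (card_le_card_of_injOn (t := range w) (fun x => x.1 % w)
    (fun x _ => mem_coe.2 (mem_range.2 (Nat.mod_lt _ hw))) ?_) (card_range w).le
  intro x hx y hy hxy
  have h1 := (mem_filter.1 hx).2
  have h2 := (mem_filter.1 hy).2
  apply Fin.ext
  rw [← Nat.div_add_mod x.1 w, ← Nat.div_add_mod y.1 w, h1, h2]
  exact congrArg _ hxy

theorem letters (hk : 1 ≤ k) (Gd X0 X : Finset (Fin n)) (c f : Fin n → Fin n)
    (hc : ∀ x ∈ Gd, c x ∈ X0) (hf : ∀ x ∈ Gd, f x ∈ X) {w W L V : ℕ} (hw : 0 < w)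
    (hL : n ≤ w * W * L) (hV : X0.card ^ k * (X.card ^ k * k) < V) :
    ∃ (U Λ : Finset (Fin n)) (lam : Fin n → Fin n), U ⊆ Gd ∧ Λ.card ≤ L * X0.card ∧
      (∀ x ∈ U, lam x ∈ Λ) ∧
      (∀ p : Fin k → Fin n, Monotone p → (∀ i, p i ∈ U) → ∃ p' : Fin k → Fin n, Monotone p' ∧
        ∀ i, p' i ∈ Gd ∧ f (p' i) = lam (p i) ∧ c (p' i) = c (p i)) ∧
      Uᶜ.card ≤ Gdᶜ.card + (univ.filter fun x : Fin n =>
        seen Gd c w (x.1 / w) ≠ seen Gd c (w * W) (x.1 / (w * W))).card + L * (V * w) := by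
  classical
  rcases Gd.eq_empty_or_nonempty with rfl | ⟨x0, hx0⟩
  · refine ⟨∅, ∅, id, subset_rfl, by simp, by simp, fun p _ hp => ?_, by omega⟩
    exact absurd (hp ⟨0, hk⟩) (notMem_empty _)
  have hrep : ∀ (b : ℕ) (t : Fin n), ∃ x ∈ Gd, t ∈ seen Gd c w b → x.1 / w = b ∧ c x = t := by
    intro b t
    by_cases h : t ∈ seen Gd c w b
    · obtain ⟨x, hx, hxt⟩ := mem_image.1 h
      exact ⟨x, (mem_filter.1 hx).1, fun _ => ⟨(mem_filter.1 hx).2, hxt⟩⟩
    · exact ⟨x0, hx0, fun h' => absurd h' h⟩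
  choose rep hrep1 hrep2 using hrep
  let Ws : ℕ → Finset ℕ := fun a => (range n).filter fun b =>
    b / W = a ∧ seen Gd c w b = seen Gd c (w * W) a
  have hb : ∀ a, ∃ b0, V ≤ (Ws a).card → ∀ u : Fin k → Fin n, (∀ i, u i ∈ X0) →
      ∃ bs : Fin k → ℕ, StrictMono bs ∧
        ∀ l, bs l ∈ Ws a ∧ f (rep (bs l) (u l)) = f (rep b0 (u l)) := by
    intro a
    by_cases h : V ≤ (Ws a).card
    · obtain ⟨b0, _, hb0⟩ := lonely (k := k) (Ws a) X0 X (fun b t => f (rep b t))
        (fun b t => hf _ (hrep1 b t)) (hV.trans_le h)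
      exact ⟨b0, fun _ => hb0⟩
    · exact ⟨0, fun h' => absurd h' h⟩
  choose b0 hb0 using hb
  have hlt : ∀ x : Fin n, x.1 / (w * W) < L := fun x =>
    Nat.div_lt_of_lt_mul (lt_of_lt_of_le x.2 hL)
  refine ⟨Gd.filter fun x => V ≤ (Ws (x.1 / (w * W))).card,
    (range L ×ˢ X0).image fun p => f (rep (b0 p.1) p.2),
    fun x => f (rep (b0 (x.1 / (w * W))) (c x)), filter_subset _ _, ?_, ?_, ?_, ?_⟩
  · refine card_image_le.trans ?_
    rw [card_product, card_range]
  · intro x hx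
    exact mem_image.2 ⟨(x.1 / (w * W), c x),
      mem_product.2 ⟨mem_range.2 (hlt x), hc x (mem_filter.1 hx).1⟩, rfl⟩
  · intro p hp hU
    have h1 : ∀ a, ∃ bs : Fin k → ℕ, V ≤ (Ws a).card → StrictMono bs ∧
        ∀ l, bs l ∈ Ws a ∧ f (rep (bs l) (c (p l))) = f (rep (b0 a) (c (p l))) := by
      intro a
      by_cases h : V ≤ (Ws a).card
      · obtain ⟨bs, hbs⟩ := hb0 a h (fun l => c (p l)) fun l => hc _ (mem_filter.1 (hU l)).1
        exact ⟨bs, fun _ => hbs⟩
      · exact ⟨fun _ => 0, fun h' => absurd h' h⟩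
    choose bs hbs using h1
    have h2 := fun l => hbs ((p l).1 / (w * W)) (mem_filter.1 (hU l)).2
    have h3 := fun l => (mem_filter.1 ((h2 l).2 l).1).2
    have h4 := fun l => hrep2 (bs ((p l).1 / (w * W)) l) (c (p l)) (by
      rw [(h3 l).2]
      exact mem_image.2 ⟨p l, mem_filter.2 ⟨(mem_filter.1 (hU l)).1, rfl⟩, rfl⟩)
    refine ⟨fun l => rep (bs ((p l).1 / (w * W)) l) (c (p l)), ?_,
      fun l => ⟨hrep1 _ _, ((h2 l).2 l).2, (h4 l).2⟩⟩
    refine monotone_iff_forall_lt.2 fun l l' hl => ?_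
    have h5 : (p l).1 / (w * W) ≤ (p l').1 / (w * W) := Nat.div_le_div_right (hp hl.le)
    have h6 : bs ((p l).1 / (w * W)) l < bs ((p l').1 / (w * W)) l' := by
      rcases h5.eq_or_lt with h7 | h7
      · rw [h7]
        exact (h2 l').1 hl
      · rw [← (h3 l).1, ← (h3 l').1] at h7
        exact Nat.lt_of_div_lt_div h7
    rw [← (h4 l).1, ← (h4 l').1] at h6
    exact Fin.le_def.2 (Nat.lt_of_div_lt_div h6).le
  · have h1 : (Gd.filter fun x => V ≤ (Ws (x.1 / (w * W))).card)ᶜ ⊆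
        (Gdᶜ ∪ univ.filter fun x : Fin n =>
          seen Gd c w (x.1 / w) ≠ seen Gd c (w * W) (x.1 / (w * W))) ∪
        (range L).biUnion fun a => ((Ws a).filter fun _ => (Ws a).card < V).biUnion fun b =>
          univ.filter fun x : Fin n => x.1 / w = b := by
      intro x hx
      rw [mem_compl, mem_filter] at hx
      by_cases hG : x ∈ Gd
      · by_cases hs : seen Gd c w (x.1 / w) = seen Gd c (w * W) (x.1 / (w * W))
        · refine mem_union_right _ (mem_biUnion.2 ⟨x.1 / (w * W), mem_range.2 (hlt x),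
            mem_biUnion.2 ⟨x.1 / w, mem_filter.2 ⟨mem_filter.2 ⟨mem_range.2 ?_, ?_, hs⟩, ?_⟩,
              mem_filter.2 ⟨mem_univ _, rfl⟩⟩⟩)
          · exact lt_of_le_of_lt (Nat.div_le_self _ _) x.2
          · exact Nat.div_div_eq_div_mul _ _ _
          · exact not_le.1 fun h => hx ⟨hG, h⟩
        · exact mem_union_left _ (mem_union_right _ (mem_filter.2 ⟨mem_univ _, hs⟩))
      · exact mem_union_left _ (mem_union_left _ (mem_compl.2 hG))
    refine (card_le_card h1).trans ((card_union_le _ _).trans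
      (Nat.add_le_add (card_union_le _ _) ?_))
    refine (card_biUnion_le_card_mul _ _ (V * w) fun a _ => ?_).trans (by rw [card_range])
    refine (card_biUnion_le_card_mul _ _ w fun b _ => card_window w b hw).trans
      (Nat.mul_le_mul_right _ ?_)
    by_cases h : (Ws a).card < V
    · exact (card_filter_le _ _).trans h.le
    · simp [h]

/-- Some level of a decreasing chain of letter sets is stable for most rows. -/
theorem exists_stable {α : Type*} [DecidableEq α] (S : ℕ → Fin n → Finset α) {m T : ℕ}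
    (hT : 0 < T) (hanti : ∀ i x, S (i + 1) x ⊆ S i x) (hm : ∀ x, (S 0 x).card ≤ m) :
    ∃ i < T, (univ.filter fun x => S (i + 1) x ≠ S i x).card * T ≤ m * n := by
  have h1 : ∀ x (j : ℕ), (∑ i ∈ range j, if S (i + 1) x ≠ S i x then 1 else 0) + (S j x).card ≤
      (S 0 x).card := by
    intro x j
    induction j with
    | zero => simp
    | succ j ih =>
      rw [sum_range_succ]
      by_cases h : S (j + 1) x = S j x
      · rw [if_neg (not_not.2 h), h]
        omega
      · have h2 := card_lt_card (ssubset_of_subset_of_ne (hanti j x) h)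
        rw [if_pos h]
        omega
  obtain ⟨i, hi, hmin⟩ := exists_min_image (range T)
    (fun i => (univ.filter fun x => S (i + 1) x ≠ S i x).card) ⟨0, mem_range.2 hT⟩
  refine ⟨i, mem_range.1 hi, ?_⟩
  have h2 := card_nsmul_le_sum (range T) _ _ hmin
  rw [card_range, smul_eq_mul, Nat.mul_comm] at h2
  refine h2.trans ?_
  simp only [card_filter]
  rw [sum_comm]
  refine (sum_le_card_nsmul _ _ m fun x _ => ?_).trans ?_
  · have h3 := h1 x T
    have h4 := hm x
    omega
  · rw [card_univ, Fintype.card_fin, smul_eq_mul, Nat.mul_comm]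

/-- Rows close to a letter, in ordered blocks. -/
def RowsOK (k : ℕ) (A : Matrix (Fin n) (Fin n) Bool) (U : Finset (Fin n)) (f : Fin n → Fin n)
    (τ r : ℕ) : Prop :=
  ∀ p : Fin k → Fin n, Monotone p → (∀ i, p i ∈ U) → ∃ R : Fin k → Finset (Fin n), Ord R ∧
    (∀ i, τ ≤ (R i).card) ∧ ∀ i, ∀ x ∈ R i, hd A x (f (p i)) ≤ r

theorem fine (A : Matrix (Fin n) (Fin n) Bool) (E X : Finset (Fin n)) (f : Fin n → Fin n)
    (r τ : ℕ) (hf : ∀ x, x ∉ E → f x ∈ X ∧ hd A x (f x) ≤ r) :
    ∃ M : Finset (Fin n), M.card ≤ E.card + X.card ^ k * (k * τ) ∧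
      (∀ x, x ∉ M → f x ∈ X ∧ hd A x (f x) ≤ r) ∧ RowsOK k A Mᶜ f τ r := by
  obtain ⟨M, hM1, hM2⟩ := greedyAll (Fintype.piFinset fun _ : Fin k => X) τ
    (fun π i x => hd A x (π i) ≤ r)
  rw [Fintype.card_piFinset, prod_const, card_univ, Fintype.card_fin] at hM1
  refine ⟨E ∪ M, (card_union_le _ _).trans (Nat.add_le_add_left hM1 _),
    fun x hx => hf x fun h => hx (mem_union_left _ h), fun p hp hU => ?_⟩
  have h1 := fun i => hf (p i) fun h => mem_compl.1 (hU i) (mem_union_left _ h)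
  exact hM2 (fun i => f (p i)) (Fintype.mem_piFinset.2 fun i => (h1 i).1) p hp
    fun i => ⟨fun h => mem_compl.1 (hU i) (mem_union_right _ h), (h1 i).2⟩

/-- The repaired matrix. -/
theorem assemble (A : Matrix (Fin n) (Fin n) Bool) (U Λ : Finset (Fin n)) (lam : Fin n → Fin n)
    (hU : Uᶜ.card < n) (hΛ : ∀ x ∈ U, lam x ∈ Λ) {ρ0 τ s r N : ℕ}
    (hρ : ∀ x ∈ U, hd A x (lam x) ≤ ρ0) (hrs : k * r ≤ s) (hrows : RowsOK k A U lam τ r)
    (hN : Λ.card ^ k * 2 ^ (k * k) * (k * (2 * s)) ≤ N) (hNn : N < n) :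
    ∃ B, changes A B ≤ Uᶜ.card * n + n * (N + ρ0) ∧
      ∀ G : Matrix (Fin k) (Fin k) Bool, copies G B ≠ 0 → τ ^ k * s ^ k ≤ copies G A := by
  classical
  obtain ⟨M, hM1, hM2⟩ := greedyAll ((Fintype.piFinset fun _ : Fin k => Λ) ×ˢ
    (univ : Finset (Fin k → Fin k → Bool))) (2 * s)
    (fun π j y => ∀ i, A (π.1 i) y = π.2 i j)
  have hM3 : M.card ≤ N := by
    refine hM1.trans (le_trans (le_of_eq ?_) hN)
    rw [card_product, Fintype.card_piFinset, prod_const, card_univ, card_univ, Fintype.card_fin,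
      Fintype.card_fun, Fintype.card_fun, Fintype.card_bool, Fintype.card_fin, pow_mul]
  obtain ⟨ρ, hρ1, hρ2, hρ3⟩ := N037.retraction Uᶜ hU
  obtain ⟨σ, hσ1, hσ2, hσ3⟩ := N037.retraction M (by omega)
  refine ⟨A.submatrix (fun x => lam (ρ x)) σ, ?_, fun G hG => ?_⟩
  · rw [changes_eq, ← sum_add_sum_compl U, Nat.add_comm]
    refine Nat.add_le_add ?_ ?_
    · refine (sum_le_card_nsmul _ _ n fun x _ => ?_).trans (by rw [smul_eq_mul])
      exact (card_le_univ _).trans (Fintype.card_fin n).le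
    · refine (sum_le_card_nsmul _ _ (N + ρ0) fun x hx => ?_).trans ?_
      · refine le_trans (card_le_card (t := M ∪ univ.filter fun y => A x y ≠ A (lam x) y)
          fun y hy => ?_) ((card_union_le _ _).trans (Nat.add_le_add hM3 (hρ x hx)))
        by_cases hyM : y ∈ M
        · exact mem_union_left _ hyM
        · have h1 := (mem_filter.1 hy).2
          rw [Matrix.submatrix_apply, hρ3 x (fun h => mem_compl.1 h hx), hσ3 y hyM] at h1
          exact mem_union_right _ (mem_filter.2 ⟨mem_univ _, h1⟩)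
      · rw [smul_eq_mul]
        exact Nat.mul_le_mul_right _ ((card_le_univ _).trans (Fintype.card_fin n).le)
  · obtain ⟨a, b, ha, hb, hab⟩ := exists_cp hG
    have hU' : ∀ i, ρ (a i) ∈ U := fun i => not_not.1 fun h => hρ2 _ (mem_compl.2 h)
    obtain ⟨R, hR1, hR2, hR3⟩ := hrows (fun i => ρ (a i)) (hρ1.comp ha.monotone) hU'
    obtain ⟨C, hC1, hC2, hC3⟩ := hM2 (fun i => lam (ρ (a i)), G)
      (mem_product.2 ⟨Fintype.mem_piFinset.2 fun i => hΛ _ (hU' i), mem_univ _⟩)
      (fun j => σ (b j)) (hσ1.comp hb.monotone) fun j => ⟨hσ2 _, fun i => hab i j⟩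
    refine copies_ge G A hR1 hR2 fun x hx => ?_
    let Z : Finset (Fin n) := univ.biUnion fun i : Fin k =>
      univ.filter fun y => A (x i) y ≠ A (lam (ρ (a i))) y
    have hZ : Z.card ≤ s := by
      refine (card_biUnion_le_card_mul _ _ r fun i _ => hR3 i _ (hx i)).trans ?_
      rwa [card_univ, Fintype.card_fin]
    refine ⟨fun j => C j \ Z, hC1.mono fun j => sdiff_subset, fun j => ?_, fun i j y hy => ?_⟩
    · have h1 := le_card_sdiff Z (C j)
      have h2 := hC2 j
      show s ≤ (C j \ Z).card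
      omega
    · obtain ⟨hy1, hy2⟩ := mem_sdiff.1 hy
      have h1 : A (x i) y = A (lam (ρ (a i))) y := not_not.1 fun h =>
        hy2 (mem_biUnion.2 ⟨i, mem_univ _, mem_filter.2 ⟨mem_univ _, h⟩⟩)
      exact h1.trans (hC3 j y hy1 i)

end Vale.Agent.N037E
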