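import Vale.Agent.N037E.Levels

/-!
The removal lemma for ordered binary matrices with a doubly exponential bound.
-/

namespace Vale.Agent.N037E

open Finset

variable {k n : ℕ}

/-- One level: coarse letters `c`, fine letters `f`, intervals of width `w * W` cut into windows
of width `w`. -/
theorem level (hk : 1 ≤ k) (A : Matrix (Fin n) (Fin n) Bool) (Gd X0 X : Finset (Fin n))
    (c f : Fin n → Fin n) {P L m m' w W τ s r : ℕ} (hP : 16 ≤ P) (hn : 0 < n)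
    (hc : ∀ x ∈ Gd, c x ∈ X0 ∧ hd A x (c x) ≤ n / P) (hX0 : X0.card ≤ m)
    (hf : ∀ x ∈ Gd, f x ∈ X ∧ hd A x (f x) ≤ r) (hX : X.card ≤ m')
    (hrows : RowsOK k A Gd f τ r) (hw : 0 < w) (hL : n ≤ w * W * L) (hL2 : w * W * L ≤ 2 * n)
    (hW : 2 * P * (m ^ k * (m' ^ k * k) + 1) ≤ W) (hG : Gdᶜ.card * P ≤ 2 * n)
    (hst : (univ.filter fun x : Fin n =>
      seen Gd c w (x.1 / w) ≠ seen Gd c (w * W) (x.1 / (w * W))).card * P ≤ n)
    (hrs : k * r ≤ s) (hr : r * P ≤ n)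
    (hs : (L * m) ^ k * 2 ^ (k * k) * (k * (2 * s)) * P ≤ n) :
    ∃ B, changes A B * P ≤ 8 * n ^ 2 ∧
      ∀ G : Matrix (Fin k) (Fin k) Bool, copies G B ≠ 0 → τ ^ k * s ^ k ≤ copies G A := by
  obtain ⟨V, hV⟩ : ∃ V, V = m ^ k * (m' ^ k * k) + 1 := ⟨_, rfl⟩
  rw [← hV] at hW
  obtain ⟨U, Λ, lam, hU1, hΛ1, hΛ2, hp, hU2⟩ := letters hk Gd X0 X c f (fun x hx => (hc x hx).1)
    (fun x hx => (hf x hx).1) (V := V) hw hL (by
      rw [hV]
      exact Nat.lt_succ_of_le (Nat.mul_le_mul (Nat.pow_le_pow_left hX0 k)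
        (Nat.mul_le_mul_right _ (Nat.pow_le_pow_left hX k))))
  have h1 : L * (V * w) * P ≤ n := by
    have h2 : 2 * (L * (V * w) * P) ≤ w * W * L := by
      calc 2 * (L * (V * w) * P) = w * (2 * P * V) * L := by ring
        _ ≤ _ := Nat.mul_le_mul_right _ (Nat.mul_le_mul_left _ hW)
    omega
  have h2 : Uᶜ.card * P ≤ 4 * n := by
    have h3 := Nat.mul_le_mul_right P hU2
    rw [Nat.add_mul, Nat.add_mul] at h3
    omega
  obtain ⟨N, hN⟩ : ∃ N, N = (L * m) ^ k * 2 ^ (k * k) * (k * (2 * s)) := ⟨_, rfl⟩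
  rw [← hN] at hs
  have h3 : n / P * P ≤ n := Nat.div_mul_le_self n P
  obtain ⟨B, hB1, hB2⟩ := assemble (k := k) A U Λ lam (ρ0 := n / P + (n / P + r)) (τ := τ)
    (s := s) (r := r) (N := N)
    (by
      have h4 := Nat.mul_le_mul_left Uᶜ.card hP
      omega) hΛ2
    (by
      intro x hx
      obtain ⟨p', -, hp'⟩ := hp (fun _ => x) monotone_const fun _ => hx
      obtain ⟨a1, a2, a3⟩ := hp' ⟨0, hk⟩
      have a4 := hd_triangle A x (c x) (lam x)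
      have a5 := hd_triangle A (c x) (p' ⟨0, hk⟩) (lam x)
      have a6 := (hc x (hU1 hx)).2
      have a7 := (hc _ a1).2
      have a8 := (hf _ a1).2
      rw [a3, hd_comm] at a7
      rw [a2] at a8
      omega) hrs
    (by
      intro p hp1 hp2
      obtain ⟨p', h4, h5⟩ := hp p hp1 hp2
      obtain ⟨R, hR1, hR2, hR3⟩ := hrows p' h4 fun i => (h5 i).1
      exact ⟨R, hR1, hR2, fun i x hx => by rw [← (h5 i).2.1]; exact hR3 i x hx⟩)
    (by
      rw [hN]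
      exact Nat.mul_le_mul_right _ (Nat.mul_le_mul_right _ (Nat.pow_le_pow_left
        (hΛ1.trans (Nat.mul_le_mul_left _ hX0)) k)))
    (by
      have h4 := Nat.mul_le_mul_left N hP
      omega)
  refine ⟨B, ?_, hB2⟩
  calc changes A B * P ≤ (Uᶜ.card * n + n * (N + (n / P + (n / P + r)))) * P :=
        Nat.mul_le_mul_right _ hB1
    _ = n * (Uᶜ.card * P + N * P + n / P * P + n / P * P + r * P) := by ring
    _ ≤ n * (8 * n) := Nat.mul_le_mul_left _ (by omega)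
    _ = _ := by ring

/-- The inequalities between the parameters of one level. -/
theorem numerics (hk : 1 ≤ k) {P L m a D : ℕ} (hP : 16 ≤ P) (hm : m ≤ L)
    (hL : 2 * P * (k + 1) * 2 ^ (k * k) ≤ L)
    (hD : L ^ ((2 * k + 2) * a * k + 2 * k + 2) ≤ D) (hn : D ≤ n) :
    2 * P * (m ^ k * (((L ^ (2 * k + 2)) ^ a) ^ k * k) + 1) ≤
        L ^ ((2 * k + 2) * a * k + 2 * k + 1) ∧
      k * (n / L ^ (2 * k + 2)) ≤ n / (2 * L ^ (2 * k + 1)) ∧ n / L ^ (2 * k + 2) * P ≤ n ∧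
      (L * m) ^ k * 2 ^ (k * k) * (k * (2 * (n / (2 * L ^ (2 * k + 1))))) * P ≤ n ∧
      n ≤ n / (L * ((L ^ (2 * k + 2)) ^ a) ^ k) * D ∧ n ≤ n / (2 * L ^ (2 * k + 1)) * D := by
  have h2 : 1 ≤ 2 ^ (k * k) := Nat.one_le_two_pow
  have hL1 : 2 * P * (k + 1) ≤ L := (Nat.le_mul_of_pos_right _ h2).trans hL
  have hL2 : 2 * P ≤ L := (Nat.le_mul_of_pos_right _ (Nat.succ_pos k)).trans hL1
  have hL3 : 2 * 16 * (k + 1) ≤ L :=
    (Nat.mul_le_mul_right _ (Nat.mul_le_mul_left _ hP)).trans hL1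
  have hL0 : 0 < L := by omega
  obtain ⟨e, he⟩ : ∃ e, e = (2 * k + 2) * a * k := ⟨_, rfl⟩
  have he2 : ((L ^ (2 * k + 2)) ^ a) ^ k = L ^ e := by rw [he, pow_mul, pow_mul]
  rw [← he] at hD ⊢
  rw [he2]
  have h3 : 4 * L ^ (2 * k + 1) ≤ D := by
    calc 4 * L ^ (2 * k + 1) ≤ L * L ^ (2 * k + 1) := Nat.mul_le_mul_right _ (by omega)
      _ = L ^ (2 * k + 2) := by ring
      _ ≤ L ^ (e + 2 * k + 2) := Nat.pow_le_pow_right hL0 (by omega)
      _ ≤ D := hD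
  have h4 : 2 * (L * L ^ e) ≤ D := by
    calc 2 * (L * L ^ e) ≤ L * (L * L ^ e) := Nat.mul_le_mul_right _ (by omega)
      _ = L ^ (e + 2) := by ring
      _ ≤ L ^ (e + 2 * k + 2) := Nat.pow_le_pow_right hL0 (by omega)
      _ ≤ D := hD
  refine ⟨?_, ?_, ?_, ?_, le_div_mul (by positivity) h4 (by omega),
    le_div_mul (by positivity) (by omega) (by omega)⟩
  · have h5 : 1 ≤ L ^ k * L ^ e := Nat.mul_pos (Nat.pow_pos hL0) (Nat.pow_pos hL0)
    calc 2 * P * (m ^ k * (L ^ e * k) + 1) ≤ 2 * P * (L ^ k * (L ^ e * k) + L ^ k * L ^ e) :=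
          Nat.mul_le_mul_left _ (Nat.add_le_add
            (Nat.mul_le_mul_right _ (Nat.pow_le_pow_left hm k)) h5)
      _ = 2 * P * (k + 1) * (L ^ k * L ^ e) := by ring
      _ ≤ L * (L ^ k * L ^ e) := Nat.mul_le_mul_right _ hL1
      _ = L ^ (e + k + 1) := by ring
      _ ≤ _ := Nat.pow_le_pow_right hL0 (by omega)
  · refine (Nat.le_div_iff_mul_le (by positivity)).2 ?_
    calc k * (n / L ^ (2 * k + 2)) * (2 * L ^ (2 * k + 1))
        = n / L ^ (2 * k + 2) * (2 * k * L ^ (2 * k + 1)) := by ring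
      _ ≤ n / L ^ (2 * k + 2) * (L * L ^ (2 * k + 1)) :=
          Nat.mul_le_mul_left _ (Nat.mul_le_mul_right _ (by omega))
      _ = n / L ^ (2 * k + 2) * L ^ (2 * k + 2) := by ring
      _ ≤ n := Nat.div_mul_le_self _ _
  · refine le_trans (Nat.mul_le_mul_left _ ?_) (Nat.div_mul_le_self n (L ^ (2 * k + 2)))
    exact le_trans (by omega) (Nat.le_self_pow (by omega) L)
  · have h5 : 2 ^ (k * k) * k * P ≤ L := by
      refine le_trans ?_ hL
      calc 2 ^ (k * k) * k * P = P * k * 2 ^ (k * k) := by ring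
        _ ≤ _ := Nat.mul_le_mul_right _ (Nat.mul_le_mul (by omega) (Nat.le_succ k))
    calc (L * m) ^ k * 2 ^ (k * k) * (k * (2 * (n / (2 * L ^ (2 * k + 1))))) * P
        = (L * m) ^ k * (2 ^ (k * k) * k * P) * (2 * (n / (2 * L ^ (2 * k + 1)))) := by ring
      _ ≤ (L * L) ^ k * L * (2 * (n / (2 * L ^ (2 * k + 1)))) :=
          Nat.mul_le_mul_right _ (Nat.mul_le_mul
            (Nat.pow_le_pow_left (Nat.mul_le_mul_left _ hm) k) h5)
      _ = n / (2 * L ^ (2 * k + 1)) * (2 * L ^ (2 * k + 1)) := by ring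
      _ ≤ n := Nat.div_mul_le_self _ _

theorem seen_mono (Gd : Finset (Fin n)) (c : Fin n → Fin n) {w w' : ℕ} (h : w ∣ w') (x : ℕ) :
    seen Gd c w (x / w) ⊆ seen Gd c w' (x / w') := by
  obtain ⟨u, rfl⟩ := h
  refine image_subset_image fun y hy => mem_filter.2 ⟨(mem_filter.1 hy).1, ?_⟩
  rw [← Nat.div_div_eq_div_mul, ← Nat.div_div_eq_div_mul, (mem_filter.1 hy).2]

/-- The removal lemma in integer form. -/
theorem core (hk : 1 ≤ k) : ∃ a b κ : ℕ, ∀ P, 16 ≤ P → k ≤ (P ^ b) ^ κ ^ (P * P ^ a) ∧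
    ∀ n, 1 ≤ n → ∀ A : Matrix (Fin n) (Fin n) Bool, ∃ B, changes A B * P ≤ 8 * n ^ 2 ∧
      ∀ G : Matrix (Fin k) (Fin k) Bool, copies G B ≠ 0 →
        n ^ (2 * k) ≤ copies G A * ((P ^ b) ^ κ ^ (P * P ^ a)) ^ (2 * k) := by
  classical
  obtain ⟨a, ha⟩ := cover hk
  obtain ⟨b, hb⟩ := ((((PB.const 2).mul PB.self).mul (PB.const (k + 1))).mul
    (PB.const (2 ^ (k * k)))).mul (PB.self.mul (PB.self.pow a))
  obtain ⟨κ, hκ⟩ : ∃ κ, κ = (2 * k + 2) * a * k + 2 * k + 2 := ⟨_, rfl⟩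
  refine ⟨a, b, κ, fun P hP => ?_⟩
  have hz := hb P (by omega)
  simp only [] at hz
  obtain ⟨m, hm⟩ : ∃ m, m = P ^ a := ⟨_, rfl⟩
  obtain ⟨z, hz'⟩ : ∃ z, z = P ^ b := ⟨_, rfl⟩
  rw [← hm, ← hz'] at hz ⊢
  obtain ⟨T, hT⟩ : ∃ T, T = P * m := ⟨_, rfl⟩
  rw [← hT] at hz ⊢
  have hm0 : 0 < m := by rw [hm]; positivity
  have hT0 : 0 < T := by rw [hT]; positivity
  have hmT : m ≤ T := by rw [hT]; exact Nat.le_mul_of_pos_left _ (by omega)
  have hz1 : 2 * P * (k + 1) * 2 ^ (k * k) ≤ z := (Nat.le_mul_of_pos_right _ hT0).trans hz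
  have hz2 : T ≤ z := (Nat.le_mul_of_pos_left _ (by positivity)).trans hz
  have hz3 : P * (T * (k + 1)) ≤ z := by
    refine le_trans ?_ hz
    calc P * (T * (k + 1)) = P * (k + 1) * 1 * T := by ring
      _ ≤ _ := Nat.mul_le_mul_right _ (Nat.mul_le_mul
          (Nat.mul_le_mul_right _ (by omega)) Nat.one_le_two_pow)
  have hz4 : 2 ≤ z := by
    have h1 : m ≤ P * m := Nat.le_mul_of_pos_left _ (by omega)
    have h2 := Nat.mul_le_mul_right m hP
    omega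
  have hκ0 : 0 < κ := by omega
  obtain ⟨D, hD⟩ : ∃ D, D = z ^ κ ^ T := ⟨_, rfl⟩
  rw [← hD]
  have hD0 : 0 < D := by rw [hD]; positivity
  have hLz : ∀ i, z ≤ z ^ κ ^ i := fun i => Nat.le_self_pow (by positivity) z
  refine ⟨?_, fun n hn A => ?_⟩
  · have h1 : k + 1 ≤ P * (T * (k + 1)) :=
      (Nat.le_mul_of_pos_left _ hT0).trans (Nat.le_mul_of_pos_left _ (by omega))
    have h2 := hLz T
    omega
  have hAA : changes A A * P ≤ 8 * n ^ 2 := by
    rw [changes, hammingDist_self, Nat.zero_mul]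
    exact Nat.zero_le _
  by_cases hn2 : n < D
  · refine ⟨A, hAA, fun G hG => ?_⟩
    exact (Nat.pow_le_pow_left hn2.le _).trans (Nat.le_mul_of_pos_left _ (Nat.pos_of_ne_zero hG))
  by_cases hall : ∀ G : Matrix (Fin k) (Fin k) Bool, n ^ (2 * k) ≤ copies G A * D
  · refine ⟨A, hAA, fun G _ => (hall G).trans (Nat.mul_le_mul_left _ ?_)⟩
    exact Nat.le_self_pow (by omega) D
  obtain ⟨H, hH⟩ := not_forall.1 hall
  have hn3 := not_lt.1 hn2
  have hcov : ∀ q, 2 ≤ q → q ^ a ≤ D → ∃ (E X : Finset (Fin n)) (f : Fin n → Fin n),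
      E.card * q ≤ n ∧ X.card ≤ q ^ a ∧ ∀ x, x ∉ E → f x ∈ X ∧ hd A x (f x) ≤ n / q :=
    fun q hq hqD => ha n H A q hq (hqD.trans hn3)
      (lt_of_le_of_lt (Nat.mul_le_mul_left _ hqD) (not_le.1 hH))
  have hLD : ∀ i < T, (z ^ κ ^ i) ^ κ ≤ D := by
    intro i hi
    rw [hD, ← pow_mul, ← pow_succ]
    exact Nat.pow_le_pow_right (by omega) (Nat.pow_le_pow_right hκ0 hi)
  obtain ⟨E0, X0, c, hE0, hX0, hc⟩ := hcov P (by omega) (by
    rw [← hm, hD]
    exact hmT.trans (hz2.trans (hLz T)))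
  rw [← hm] at hX0
  have hlev : ∀ i, ∃ (M X : Finset (Fin n)) (f : Fin n → Fin n), i < T →
      M.card * z ≤ (k + 1) * n ∧ X.card ≤ ((z ^ κ ^ i) ^ (2 * k + 2)) ^ a ∧
      (∀ x, x ∉ M → f x ∈ X ∧ hd A x (f x) ≤ n / (z ^ κ ^ i) ^ (2 * k + 2)) ∧
      RowsOK k A Mᶜ f (n / (z ^ κ ^ i * (((z ^ κ ^ i) ^ (2 * k + 2)) ^ a) ^ k))
        (n / (z ^ κ ^ i) ^ (2 * k + 2)) := by
    intro i
    by_cases hi : i < T
    · have h1 := hLz i
      have h2 := hLD i hi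
      generalize z ^ κ ^ i = L at h1 h2 ⊢
      have h3 : z ≤ L ^ (2 * k + 2) := h1.trans (Nat.le_self_pow (by omega) L)
      obtain ⟨E, X, f, hE, hX, hf⟩ := hcov (L ^ (2 * k + 2)) (by omega) (by
        rw [← pow_mul]
        refine le_trans (Nat.pow_le_pow_right (by omega) ?_) h2
        have h4 : (2 * k + 2) * a ≤ (2 * k + 2) * a * k := Nat.le_mul_of_pos_right _ hk
        omega)
      obtain ⟨M, hM1, hM2, hM3⟩ := fine (k := k) A E X f _
        (n / (L * ((L ^ (2 * k + 2)) ^ a) ^ k)) hf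
      refine ⟨M, X, f, fun _ => ⟨?_, hX, hM2, hM3⟩⟩
      have h4 : E.card * z ≤ n := (Nat.mul_le_mul_left _ h3).trans hE
      have h5 : X.card ^ k * (k * (n / (L * ((L ^ (2 * k + 2)) ^ a) ^ k))) * z ≤ k * n := by
        calc X.card ^ k * (k * (n / (L * ((L ^ (2 * k + 2)) ^ a) ^ k))) * z
            = k * (n / (L * ((L ^ (2 * k + 2)) ^ a) ^ k) * (z * X.card ^ k)) := by ring
          _ ≤ k * (n / (L * ((L ^ (2 * k + 2)) ^ a) ^ k) * (L * ((L ^ (2 * k + 2)) ^ a) ^ k)) :=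
              Nat.mul_le_mul_left _ (Nat.mul_le_mul_left _
                (Nat.mul_le_mul h1 (Nat.pow_le_pow_left hX k)))
          _ ≤ k * n := Nat.mul_le_mul_left _ (Nat.div_mul_le_self _ _)
      have h6 := Nat.mul_le_mul_right z hM1
      rw [Nat.add_mul] at h6
      rw [Nat.add_mul]
      omega
    · exact ⟨∅, ∅, id, fun h => absurd h hi⟩
  choose M X f hlev using hlev
  obtain ⟨Gd, hGd⟩ : ∃ Gd : Finset (Fin n), Gd = (E0 ∪ (range T).biUnion M)ᶜ := ⟨_, rfl⟩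
  have hG1 : ∀ x ∈ Gd, x ∉ E0 := fun x hx h =>
    mem_compl.1 (hGd ▸ hx) (mem_union_left _ h)
  have hG2 : ∀ i < T, ∀ x ∈ Gd, x ∉ M i := fun i hi x hx h =>
    mem_compl.1 (hGd ▸ hx) (mem_union_right _ (mem_biUnion.2 ⟨i, mem_range.2 hi, h⟩))
  have hG3 : Gdᶜ.card * P ≤ 2 * n := by
    have h1 : ((range T).biUnion M).card * z ≤ T * ((k + 1) * n) := by
      refine (Nat.mul_le_mul_right z card_biUnion_le).trans ?_
      rw [sum_mul]
      refine (sum_le_card_nsmul _ _ _ fun i hi => (hlev i (mem_range.1 hi)).1).trans ?_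
      rw [card_range, smul_eq_mul]
    have h2 : ((range T).biUnion M).card * P ≤ n := by
      refine Nat.le_of_mul_le_mul_right (c := T * (k + 1)) ?_ (by positivity)
      calc ((range T).biUnion M).card * P * (T * (k + 1))
          = ((range T).biUnion M).card * (P * (T * (k + 1))) := by ring
        _ ≤ ((range T).biUnion M).card * z := Nat.mul_le_mul_left _ hz3
        _ ≤ T * ((k + 1) * n) := h1
        _ = _ := by ring
    have h3 := Nat.mul_le_mul_right P (card_union_le E0 ((range T).biUnion M))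
    rw [hGd, compl_compl]
    rw [Nat.add_mul] at h3
    omega
  obtain ⟨w0, hw0⟩ : ∃ w0, w0 = n / D + 1 := ⟨_, rfl⟩
  have hw1 : n ≤ w0 * D := by
    rw [hw0, Nat.add_mul, Nat.one_mul]
    exact (Nat.lt_div_mul_add hD0).le
  have hw2 : w0 * D ≤ 2 * n := by
    have h1 := Nat.div_mul_le_self n D
    rw [hw0, Nat.add_mul, Nat.one_mul]
    omega
  obtain ⟨i, hi, hst⟩ := exists_stable
    (fun i (x : Fin n) => seen Gd c (w0 * z ^ (κ ^ T - κ ^ i)) (x.1 / (w0 * z ^ (κ ^ T - κ ^ i))))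
    (m := m) hT0
    (fun i x => seen_mono Gd c (Nat.mul_dvd_mul_left _ (pow_dvd_pow _
      (Nat.sub_le_sub_left (Nat.pow_le_pow_right hκ0 (Nat.le_succ i)) _))) _)
    (fun x => le_trans (card_le_card fun t ht => by
      obtain ⟨y, hy, rfl⟩ := mem_image.1 ht
      exact (hc y (hG1 y (mem_filter.1 hy).1)).1) hX0)
  have he1 : κ ^ (i + 1) ≤ κ ^ T := Nat.pow_le_pow_right hκ0 hi
  have he2 : κ ^ (i + 1) = κ ^ i * ((2 * k + 2) * a * k + 2 * k + 1) + κ ^ i := by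
    rw [pow_succ]
    generalize κ ^ i = u
    rw [hκ]
    ring
  have hw3 : w0 * z ^ (κ ^ T - κ ^ i) = w0 * z ^ (κ ^ T - κ ^ (i + 1)) *
      (z ^ κ ^ i) ^ ((2 * k + 2) * a * k + 2 * k + 1) := by
    rw [← pow_mul, Nat.mul_assoc, ← pow_add]
    congr 2
    omega
  have hw4 : w0 * z ^ (κ ^ T - κ ^ i) * z ^ κ ^ i = w0 * D := by
    rw [hD, Nat.mul_assoc, ← pow_add]
    congr 2
    omega
  obtain ⟨-, hX, hf, hrows⟩ := hlev i hi
  have hL1 := hLz i
  have hL2 := hLD i hi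
  rw [hw3] at hst hw4
  have hw5 : 0 < w0 * z ^ (κ ^ T - κ ^ (i + 1)) := by rw [hw0]; positivity
  generalize w0 * z ^ (κ ^ T - κ ^ (i + 1)) = w at hst hw4 hw5
  generalize z ^ κ ^ i = L at hX hf hrows hL1 hL2 hst hw4
  rw [hκ] at hL2
  obtain ⟨n1, n2, n3, n4, n5, n6⟩ := numerics (n := n) hk hP (hmT.trans (hz2.trans hL1))
    (hz1.trans hL1) hL2 hn3
  obtain ⟨B, hB1, hB2⟩ := level hk A Gd X0 (X i) c (f i) hP hn (fun x hx => hc x (hG1 x hx)) hX0
    (fun x hx => hf x (hG2 i hi x hx)) hX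
    (fun p hp hU => hrows p hp fun l => mem_compl.2 (hG2 i hi _ (hU l))) hw5
    (hw4 ▸ hw1) (hw4 ▸ hw2) n1 hG3
    (by
      refine Nat.le_of_mul_le_mul_right (c := m) ?_ hm0
      rw [Nat.mul_assoc, ← hT, Nat.mul_comm n m]
      exact hst) n2 n3 n4
  refine ⟨B, hB1, fun G hG => ?_⟩
  have h1 := hB2 G hG
  generalize n / (L * ((L ^ (2 * k + 2)) ^ a) ^ k) = τ at h1 n5
  generalize n / (2 * L ^ (2 * k + 1)) = s at h1 n6
  calc n ^ (2 * k) = n ^ k * n ^ k := by ring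
    _ ≤ (τ * D) ^ k * (s * D) ^ k :=
        Nat.mul_le_mul (Nat.pow_le_pow_left n5 k) (Nat.pow_le_pow_left n6 k)
    _ = τ ^ k * s ^ k * D ^ (2 * k) := by rw [mul_pow, mul_pow]; ring
    _ ≤ _ := Nat.mul_le_mul_right _ h1

end Vale.Agent.N037E
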