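import Vale.Agent.N037E.Cover

/-!
A rare pattern forces almost all rows to be near one of polynomially many rows.
-/

namespace Vale.Agent.N037E

open Finset

variable {k n : ℕ}

/-- The greedy marking for a finite family of words at once. -/
theorem greedyAll {ι : Type*} (I : Finset ι) (t : ℕ) (P : ι → Fin k → Fin n → Prop) :
    ∃ M : Finset (Fin n), M.card ≤ I.card * (k * t) ∧ ∀ π ∈ I, ∀ p : Fin k → Fin n, Monotone p →
      (∀ i, p i ∉ M ∧ P π i (p i)) →
        ∃ B : Fin k → Finset (Fin n), Ord B ∧ (∀ i, t ≤ (B i).card) ∧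
          ∀ i, ∀ x ∈ B i, P π i x := by
  classical
  choose M hM1 hM2 using fun π => greedyB t k (P π)
  refine ⟨I.biUnion M, card_biUnion_le_card_mul _ _ _ fun π _ => hM1 π, fun π hπ p hp h => ?_⟩
  exact hM2 π p hp fun i => ⟨fun hm => (h i).1 (mem_biUnion.2 ⟨π, hπ, hm⟩), (h i).2⟩

/-- The average number of pairs of rows agreeing on a tuple of columns. -/
theorem sum_agree_le (A : Matrix (Fin n) (Fin n) Bool) (R : Finset (Fin n)) (q g t : ℕ)
    (h : ∀ x ∈ R, (R.filter fun x' => hd A x x' * q ≤ n).card < g) :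
    (∑ y : Fin t → Fin n,
      ((R ×ˢ R).filter fun p => ∀ l, A p.1 (y l) = A p.2 (y l)).card) * q ^ t ≤
        R.card * g * (n ^ t * q ^ t) + R.card ^ 2 * (n ^ t * (q - 1) ^ t) := by
  classical
  have h1 : (∑ y : Fin t → Fin n,
      ((R ×ˢ R).filter fun p => ∀ l, A p.1 (y l) = A p.2 (y l)).card) =
      ∑ x ∈ R, ∑ x' ∈ R, (n - hd A x x') ^ t := by
    simp only [card_filter]
    rw [sum_comm, sum_product]
    refine sum_congr rfl fun x _ => sum_congr rfl fun x' _ => ?_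
    rw [← card_agree, card_filter]
  rw [h1, sum_mul]
  have h2 : ∀ x ∈ R, (∑ x' ∈ R, (n - hd A x x') ^ t) * q ^ t ≤
      g * (n ^ t * q ^ t) + R.card * (n ^ t * (q - 1) ^ t) := by
    intro x hx
    rw [sum_mul, ← sum_filter_add_sum_filter_not R (fun x' => hd A x x' * q ≤ n)]
    refine Nat.add_le_add ?_ ?_
    · refine (sum_le_card_nsmul _ _ (n ^ t * q ^ t) fun x' _ => ?_).trans ?_
      · exact Nat.mul_le_mul_right _ (Nat.pow_le_pow_left (Nat.sub_le _ _) _)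
      · rw [smul_eq_mul]
        exact Nat.mul_le_mul_right _ (h x hx).le
    · refine (sum_le_card_nsmul _ _ (n ^ t * (q - 1) ^ t) fun x' hx' => ?_).trans ?_
      · rw [← mul_pow, ← mul_pow]
        refine Nat.pow_le_pow_left ?_ _
        have h3 := not_le.1 (mem_filter.1 hx').2
        rw [Nat.sub_mul, Nat.mul_sub, Nat.mul_one]
        omega
      · rw [smul_eq_mul]
        exact Nat.mul_le_mul_right _ (card_filter_le _ _)
  calc _ ≤ ∑ _x ∈ R, (g * (n ^ t * q ^ t) + R.card * (n ^ t * (q - 1) ^ t)) := sum_le_sum h2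
    _ = _ := by rw [sum_const, smul_eq_mul]; ring

theorem cover_aux (H : Matrix (Fin k) (Fin k) Bool) (A : Matrix (Fin n) (Fin n) Bool)
    {q t g τ S : ℕ} (hS : S = k ^ k * k * (t + 1) ^ (k ^ k * k)) (hq : 1 ≤ q)
    (h1 : 32 * S * (q - 1) ^ t ≤ q ^ t) (h2 : 32 * q * S * g ≤ n) (hg : 1 ≤ g)
    (h3 : 2 * q * (t ^ k * (k * τ)) ≤ n) (h4 : 2 * t ^ k * copies H A < τ ^ k * n ^ k) :
    ∃ (E X : Finset (Fin n)) (f : Fin n → Fin n), E.card * q ≤ n ∧ X.card * g ≤ n ∧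
      ∀ x, x ∉ E → f x ∈ X ∧ hd A x (f x) * q ≤ n := by
  classical
  obtain ⟨X, R, -, hX, hcov, hR⟩ :=
    ball_greedy (fun c x : Fin n => hd A c x * q ≤ n) hg univ
  rw [card_univ, Fintype.card_fin] at hX
  by_cases hRq : R.card * q ≤ n
  · have h5 : ∀ x, ∃ c, x ∉ R → c ∈ X ∧ hd A x c * q ≤ n := by
      intro x
      by_cases hx : x ∈ R
      · exact ⟨x, fun h => absurd hx h⟩
      · obtain ⟨c, hc, hc2⟩ := hcov x (mem_univ _) hx
        exact ⟨c, fun _ => ⟨hc, by rwa [hd_comm]⟩⟩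
    choose f hf using h5
    exact ⟨R, X, f, hRq, hX, hf⟩
  exfalso
  have hRq' := not_le.1 hRq
  have hτ : 0 < τ ^ k * n ^ k := by omega
  have hRpos : 0 < R.card := Nat.pos_of_ne_zero fun h0 => by simp [h0] at hRq'
  have hn : 0 < n := by
    obtain ⟨x, _⟩ := card_pos.1 hRpos
    exact x.pos
  set C := (univ : Finset (Fin k → Fin n)).filter fun c =>
    StrictMono c ∧ τ ^ k ≤ (univ.filter fun r => Cp H A r c).card with hC
  have hC1 : C.card * τ ^ k ≤ copies H A := by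
    rw [copies_eq_cols]
    calc C.card * τ ^ k = ∑ _c ∈ C, τ ^ k := by rw [sum_const, smul_eq_mul]
      _ ≤ ∑ c ∈ C, (univ.filter fun r => Cp H A r c).card :=
          sum_le_sum fun c hc => (mem_filter.1 hc).2.2
      _ ≤ _ := sum_le_sum_of_subset (subset_univ _)
  have hC2 := card_hit (t := t) C fun c hc => (mem_filter.1 hc).2.1.injective
  have hsplit := card_filter_add_card_filter_not (s := (univ : Finset (Fin t → Fin n)))
    (fun y => ∃ π : Fin k → Fin t, y ∘ π ∈ C)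
  rw [card_univ, Fintype.card_fun, Fintype.card_fin, Fintype.card_fin] at hsplit
  set bad := (univ.filter fun y : Fin t → Fin n => ∃ π : Fin k → Fin t, y ∘ π ∈ C).card
  set Y := univ.filter fun y : Fin t → Fin n => ¬ ∃ π : Fin k → Fin t, y ∘ π ∈ C with hY
  have hnt : 0 < n ^ t := Nat.pow_pos hn
  have hbad : 2 * bad < n ^ t := by
    refine Nat.lt_of_mul_lt_mul_right (a := τ ^ k * n ^ k) ?_
    calc 2 * bad * (τ ^ k * n ^ k) = 2 * τ ^ k * (bad * n ^ k) := by ring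
      _ ≤ 2 * τ ^ k * (t ^ k * C.card * n ^ t) := Nat.mul_le_mul_left _ hC2
      _ = 2 * t ^ k * (C.card * τ ^ k) * n ^ t := by ring
      _ ≤ 2 * t ^ k * copies H A * n ^ t :=
          Nat.mul_le_mul_right _ (Nat.mul_le_mul_left _ hC1)
      _ < τ ^ k * n ^ k * n ^ t := Nat.mul_lt_mul_of_pos_right h4 hnt
      _ = _ := by ring
  have hYc : n ^ t ≤ 2 * Y.card := by omega
  have hYne : Y.Nonempty := card_pos.1 (by omega)
  obtain ⟨y, hyY, hy⟩ := exists_min_image Y (fun y : Fin t → Fin n =>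
    ((R ×ˢ R).filter fun p => ∀ l, A p.1 (y l) = A p.2 (y l)).card) hYne
  have hsum := sum_agree_le A R q g t hR
  set a := ((R ×ˢ R).filter fun p => ∀ l, A p.1 (y l) = A p.2 (y l)).card with ha
  have ha1 : Y.card * a ≤ ∑ y : Fin t → Fin n,
      ((R ×ˢ R).filter fun p => ∀ l, A p.1 (y l) = A p.2 (y l)).card :=
    (card_nsmul_le_sum Y _ a hy).trans (sum_le_sum_of_subset (subset_univ _))
  have ha2 : a * q ^ t ≤ 2 * (R.card * g * q ^ t + R.card ^ 2 * (q - 1) ^ t) := by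
    refine Nat.le_of_mul_le_mul_right (c := n ^ t) ?_ hnt
    calc a * q ^ t * n ^ t ≤ a * q ^ t * (2 * Y.card) := Nat.mul_le_mul_left _ hYc
      _ = 2 * (Y.card * a * q ^ t) := by ring
      _ ≤ 2 * (R.card * g * (n ^ t * q ^ t) + R.card ^ 2 * (n ^ t * (q - 1) ^ t)) :=
          Nat.mul_le_mul_left _ ((Nat.mul_le_mul_right _ ha1).trans hsum)
      _ = _ := by ring
  obtain ⟨M, hM1, hM2⟩ := greedyAll (univ : Finset (Fin k → Fin t)) τ
    (fun π i x => ∀ j, A x (y (π j)) = H i j)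
  rw [card_univ, Fintype.card_fun, Fintype.card_fin, Fintype.card_fin] at hM1
  have hM3 : 2 * M.card < R.card := by
    refine Nat.lt_of_mul_lt_mul_right (a := q) ?_
    calc 2 * M.card * q = 2 * q * M.card := by ring
      _ ≤ 2 * q * (t ^ k * (k * τ)) := Nat.mul_le_mul_left _ hM1
      _ ≤ n := h3
      _ < _ := hRq'
  have hR' : R.card ≤ 2 * (R \ M).card := by
    have := le_card_sdiff M R
    omega
  have htr := traces_le H A (R \ M) (univ.image y) (by
    rintro ⟨p, c, hp, hpR, hc, hcY, hA⟩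
    choose π _ hπ using fun j => mem_image.1 (hcY j)
    obtain ⟨B, hB1, hB2, hB3⟩ := hM2 π (mem_univ _) p hp fun i =>
      ⟨(mem_sdiff.1 (hpR i)).2, fun j => by rw [hπ j]; exact hA i j⟩
    refine (mem_filter.1 hyY).2 ⟨π, ?_⟩
    have h6 : y ∘ π = c := funext hπ
    rw [h6]
    refine mem_filter.2 ⟨mem_univ _, hc, (pow_le_card_pi hB2).trans (card_le_card fun r hr => ?_)⟩
    rw [Fintype.mem_piFinset] at hr
    exact mem_filter.2 ⟨mem_univ _, hB1.strictMono hr, hc, fun i j => by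
      rw [← hπ j]; exact hB3 i _ (hr i) j⟩)
  have hyc : (univ.image y).card ≤ t := by
    refine card_image_le.trans ?_
    rw [card_univ, Fintype.card_fin]
  have htr2 : ((R \ M).image fun x => (univ.image y).filter fun z => A x z = true).card ≤ S := by
    refine htr.trans ?_
    rw [hS]
    exact Nat.mul_le_mul_left _ (Nat.pow_le_pow_left (by omega) _)
  have hsq := sq_le_pairs (R \ M) fun x => (univ.image y).filter fun z => A x z = true
  have hpairs : (((R \ M) ×ˢ (R \ M)).filter fun p =>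
      ((univ.image y).filter fun z => A p.1 z = true) =
        (univ.image y).filter fun z => A p.2 z = true).card ≤ a := by
    refine card_le_card fun p hp => ?_
    obtain ⟨hp1, hp2⟩ := mem_filter.1 hp
    refine mem_filter.2 ⟨mem_product.2 ⟨(mem_sdiff.1 (mem_product.1 hp1).1).1,
      (mem_sdiff.1 (mem_product.1 hp1).2).1⟩, fun l => ?_⟩
    have h7 : y l ∈ univ.image y := mem_image_of_mem y (mem_univ l)
    have h8 := Finset.ext_iff.1 hp2 (y l)
    rw [mem_filter, mem_filter] at h8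
    exact Bool.eq_iff_iff.2 ⟨fun h => (h8.1 ⟨h7, h⟩).2, fun h => (h8.2 ⟨h7, h⟩).2⟩
  have hsq2 : (R \ M).card ^ 2 ≤ S * a := hsq.trans (Nat.mul_le_mul htr2 hpairs)
  have hqt : 0 < q ^ t := Nat.pow_pos hq
  have hSg : 32 * S * g ≤ R.card := by
    refine Nat.le_of_mul_le_mul_right (c := q) ?_ hq
    calc 32 * S * g * q = 32 * q * S * g := by ring
      _ ≤ _ := h2.trans hRq'.le
  have hfin : 4 * (R.card ^ 2 * q ^ t) ≤ 2 * (R.card ^ 2 * q ^ t) := by
    calc 4 * (R.card ^ 2 * q ^ t) ≤ 4 * ((2 * (R \ M).card) ^ 2 * q ^ t) :=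
          Nat.mul_le_mul_left _ (Nat.mul_le_mul_right _ (Nat.pow_le_pow_left hR' 2))
      _ = 16 * q ^ t * (R \ M).card ^ 2 := by ring
      _ ≤ 16 * q ^ t * (S * a) := Nat.mul_le_mul_left _ hsq2
      _ = 16 * S * (a * q ^ t) := by ring
      _ ≤ 16 * S * (2 * (R.card * g * q ^ t + R.card ^ 2 * (q - 1) ^ t)) :=
          Nat.mul_le_mul_left _ ha2
      _ = R.card * q ^ t * (32 * S * g) + R.card ^ 2 * (32 * S * (q - 1) ^ t) := by ring
      _ ≤ R.card * q ^ t * R.card + R.card ^ 2 * q ^ t :=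
          Nat.add_le_add (Nat.mul_le_mul_left _ hSg) (Nat.mul_le_mul_left _ h1)
      _ = _ := by ring
  have hpos : 0 < R.card ^ 2 * q ^ t := Nat.mul_pos (Nat.pow_pos hRpos) hqt
  omega

/-- Polynomially bounded functions. -/
def PB (F : ℕ → ℕ) : Prop := ∃ a : ℕ, ∀ q, 2 ≤ q → F q ≤ q ^ a

theorem PB.const (c : ℕ) : PB fun _ => c :=
  ⟨c, fun _ hq => (Nat.lt_two_pow_self.le).trans (Nat.pow_le_pow_left hq c)⟩

theorem PB.self : PB fun q => q := ⟨1, fun q _ => (pow_one q).ge⟩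

theorem PB.mul {F G : ℕ → ℕ} (hF : PB F) (hG : PB G) : PB fun q => F q * G q := by
  obtain ⟨a, ha⟩ := hF
  obtain ⟨b, hb⟩ := hG
  exact ⟨a + b, fun q hq => by rw [pow_add]; exact Nat.mul_le_mul (ha q hq) (hb q hq)⟩

theorem PB.add {F G : ℕ → ℕ} (hF : PB F) (hG : PB G) : PB fun q => F q + G q := by
  obtain ⟨a, ha⟩ := hF
  obtain ⟨b, hb⟩ := hG
  refine ⟨a + b + 1, fun q hq => ?_⟩
  have h1 : q ^ a ≤ q ^ (a + b) := Nat.pow_le_pow_right (by omega) (by omega)
  have h2 : q ^ b ≤ q ^ (a + b) := Nat.pow_le_pow_right (by omega) (by omega)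
  have h3 : q ^ (a + b) * 2 ≤ q ^ (a + b + 1) := by
    rw [pow_succ]
    exact Nat.mul_le_mul_left _ hq
  have h4 := ha q hq
  have h5 := hb q hq
  show F q + G q ≤ _
  omega

theorem PB.pow {F : ℕ → ℕ} (hF : PB F) (c : ℕ) : PB fun q => F q ^ c := by
  obtain ⟨a, ha⟩ := hF
  exact ⟨a * c, fun q hq => by rw [pow_mul]; exact Nat.pow_le_pow_left (ha q hq) c⟩

theorem bernoulli (a j : ℕ) : a ^ j * (a + j) ≤ (a + 1) ^ j * a := by
  induction j with
  | zero => simp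
  | succ j ih =>
    calc a ^ (j + 1) * (a + (j + 1)) ≤ a ^ j * (a + j) * (a + 1) := by
          have : a ^ j * (a + j) * (a + 1) = a ^ (j + 1) * (a + (j + 1)) + a ^ j * j := by ring
          omega
      _ ≤ (a + 1) ^ j * a * (a + 1) := Nat.mul_le_mul_right _ ih
      _ = _ := by ring

theorem two_mul_pow_le {q : ℕ} (hq : 1 ≤ q) : 2 * (q - 1) ^ q ≤ q ^ q := by
  rcases q with _ | a
  · omega
  · have h := bernoulli a a
    rw [Nat.add_sub_cancel]
    calc 2 * a ^ (a + 1) = a ^ a * (a + a) := by ring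
      _ ≤ (a + 1) ^ a * a := h
      _ ≤ (a + 1) ^ a * (a + 1) := Nat.mul_le_mul_left _ (Nat.le_succ a)
      _ = _ := by ring

theorem le_div_mul {Y D n : ℕ} (hY : 0 < Y) (h : 2 * Y ≤ D) (hn : Y ≤ n) : n ≤ n / Y * D := by
  have h1 : 1 ≤ n / Y := (Nat.one_le_div_iff hY).2 hn
  have h2 := Nat.lt_div_mul_add (a := n) hY
  have h3 : Y ≤ n / Y * Y := Nat.le_mul_of_pos_left _ h1
  calc n ≤ n / Y * (2 * Y) := by
        have : n / Y * (2 * Y) = 2 * (n / Y * Y) := by ring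
        omega
    _ ≤ _ := Nat.mul_le_mul_left _ h

/-- The number of sampled columns. -/
theorem sample_ok {q : ℕ} (hq : 1 ≤ q) (d t : ℕ) (ht : t = 64 * q ^ 2 * (d + 1) ^ 2) :
    32 * (d * (t + 1) ^ d) * (q - 1) ^ t ≤ q ^ t := by
  obtain ⟨v, hv⟩ : ∃ v, v = 32 * q * (d + 1) := ⟨_, rfl⟩
  have h1 : v + 1 ≤ 2 ^ v := Nat.lt_two_pow_self
  have h2 : (v + 1) ^ 2 ≤ 2 ^ (v * 2) := by
    rw [pow_mul]
    exact Nat.pow_le_pow_left h1 2
  have h3 : (v + 1) ^ 2 = v * v + 2 * v + 1 := by ring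
  have h4 : 16 * t = v * v := by rw [ht, hv]; ring
  have h5 : 32 * d ≤ v := by
    rw [hv]
    exact Nat.mul_le_mul (by omega) (Nat.le_succ d)
  have h6 : 32 * (d * (t + 1) ^ d) ≤ 2 ^ (v * 2 * (d + 1)) := by
    calc 32 * (d * (t + 1) ^ d) = (t + 1) ^ d * (32 * d) := by ring
      _ ≤ (2 ^ (v * 2)) ^ d * 2 ^ (v * 2) :=
          Nat.mul_le_mul (Nat.pow_le_pow_left (by omega) d) (by omega)
      _ = _ := by ring
  have h7 : t = q * (v * 2 * (d + 1)) := by rw [ht, hv]; ring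
  calc 32 * (d * (t + 1) ^ d) * (q - 1) ^ t ≤ 2 ^ (v * 2 * (d + 1)) * (q - 1) ^ t :=
        Nat.mul_le_mul_right _ h6
    _ = (2 * (q - 1) ^ q) ^ (v * 2 * (d + 1)) := by rw [mul_pow, ← pow_mul, ← h7]
    _ ≤ (q ^ q) ^ (v * 2 * (d + 1)) := Nat.pow_le_pow_left (two_mul_pow_le hq) _
    _ = q ^ t := by rw [← pow_mul, ← h7]

/-- If some `k × k` pattern has fewer than `n ^ (2 k) / q ^ a` copies, all rows but `n / q` are
within `n / q` of one of `q ^ a` rows. -/
theorem cover (hk : 1 ≤ k) : ∃ a : ℕ, ∀ (n : ℕ) (H : Matrix (Fin k) (Fin k) Bool)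
    (A : Matrix (Fin n) (Fin n) Bool) (q : ℕ), 2 ≤ q → q ^ a ≤ n →
      copies H A * q ^ a < n ^ (2 * k) →
      ∃ (E X : Finset (Fin n)) (f : Fin n → Fin n), E.card * q ≤ n ∧ X.card ≤ q ^ a ∧
        ∀ x, x ∉ E → f x ∈ X ∧ hd A x (f x) ≤ n / q := by
  obtain ⟨d, hd'⟩ : ∃ d, d = k ^ k * k := ⟨_, rfl⟩
  have hT : PB fun q => 64 * q ^ 2 * (d + 1) ^ 2 :=
    ((PB.const 64).mul (PB.self.pow 2)).mul (PB.const _)
  have hS : PB fun q => 2 * (32 * q * (d * (64 * q ^ 2 * (d + 1) ^ 2 + 1) ^ d)) :=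
    (PB.const 2).mul (((PB.const 32).mul PB.self).mul
      ((PB.const d).mul ((hT.add (PB.const 1)).pow d)))
  have hY : PB fun q => 2 * q * ((64 * q ^ 2 * (d + 1) ^ 2) ^ k * k) :=
    ((PB.const 2).mul PB.self).mul ((hT.pow k).mul (PB.const k))
  have hZ : PB fun q => 2 * (64 * q ^ 2 * (d + 1) ^ 2) ^ k *
      (2 * (2 * q * ((64 * q ^ 2 * (d + 1) ^ 2) ^ k * k))) ^ k :=
    ((PB.const 2).mul (hT.pow k)).mul (((PB.const 2).mul hY).pow k)
  obtain ⟨a, ha⟩ := (hS.add hY).add hZ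
  refine ⟨a, fun n H A q hq hn hc => ?_⟩
  have ha' := ha q hq
  simp only [] at ha'
  obtain ⟨t, ht⟩ : ∃ t, t = 64 * q ^ 2 * (d + 1) ^ 2 := ⟨_, rfl⟩
  rw [← ht] at ha'
  obtain ⟨S, hS'⟩ : ∃ S, S = d * (t + 1) ^ d := ⟨_, rfl⟩
  have h1 := sample_ok (q := q) (by omega) d t ht
  rw [← hS'] at ha' h1
  have hdpos : 0 < d := by rw [hd']; positivity
  have htpos : 0 < t := by rw [ht]; positivity
  have hSpos : 0 < S := by rw [hS']; positivity
  obtain ⟨U, hU⟩ : ∃ U, U = 32 * q * S := ⟨_, rfl⟩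
  obtain ⟨Y, hY'⟩ : ∃ Y, Y = 2 * q * (t ^ k * k) := ⟨_, rfl⟩
  rw [← hU, ← hY'] at ha'
  have hUpos : 0 < U := by rw [hU]; positivity
  have hYpos : 0 < Y := by rw [hY']; positivity
  have hg : 1 ≤ n / U := (Nat.one_le_div_iff hUpos).2 (by omega)
  have hτ : n ≤ n / Y * (2 * Y) := le_div_mul hYpos le_rfl (by omega)
  obtain ⟨E, X, f, hE, hX, hf⟩ := cover_aux H A (q := q) (t := t) (g := n / U) (τ := n / Y)
    (S := S) (by rw [hS', hd']) (by omega) h1 (by rw [← hU]; exact Nat.mul_div_le n U) hg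
    (by
      calc 2 * q * (t ^ k * (k * (n / Y))) = Y * (n / Y) := by rw [hY']; ring
        _ ≤ n := Nat.mul_div_le n Y)
    (by
      refine Nat.lt_of_mul_lt_mul_right (a := (2 * Y) ^ k) ?_
      calc 2 * t ^ k * copies H A * (2 * Y) ^ k = copies H A * (2 * t ^ k * (2 * Y) ^ k) := by ring
        _ ≤ copies H A * q ^ a := Nat.mul_le_mul_left _ (by omega)
        _ < n ^ (2 * k) := hc
        _ = n ^ k * n ^ k := by ring
        _ ≤ (n / Y * (2 * Y)) ^ k * n ^ k := Nat.mul_le_mul_right _ (Nat.pow_le_pow_left hτ k)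
        _ = _ := by rw [mul_pow]; ring)
  refine ⟨E, X, f, hE, ?_, fun x hx => ⟨(hf x hx).1,
    (Nat.le_div_iff_mul_le (by omega)).2 (hf x hx).2⟩⟩
  refine Nat.le_of_mul_le_mul_right (c := n / U) ?_ hg
  calc X.card * (n / U) ≤ n := hX
    _ ≤ n / U * q ^ a := le_div_mul hUpos (by omega) (by omega)
    _ = _ := Nat.mul_comm _ _

end Vale.Agent.N037E
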